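import Crest.Agent.N337.Defs

-- ▼ part N337/BasicG
section

/-!
# Row 337, basics I: entrywise positivity and abstract Gibbs / Duhamel functionals
-/

set_option autoImplicit false

namespace Crest.Agent.N337

open Filter Topology Matrix

section pos
variable {m : Type}

theorem pos_zero : Pos (0 : Matrix m m ℂ) := fun _ _ => by simp

theorem Pos.add {A B : Matrix m m ℂ} (hA : Pos A) (hB : Pos B) : Pos (A + B) := fun i j => by
  simp only [Matrix.add_apply, Complex.add_im, Complex.add_re, (hA i j).1, (hB i j).1]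
  exact ⟨by simp, add_nonneg (hA i j).2 (hB i j).2⟩

theorem Pos.smul {A : Matrix m m ℂ} (hA : Pos A) {c : ℝ} (hc : 0 ≤ c) : Pos ((c : ℂ) • A) :=
  fun i j => by
    simp only [Matrix.smul_apply, smul_eq_mul, Complex.mul_im, Complex.mul_re, Complex.ofReal_re,
      Complex.ofReal_im, (hA i j).1]
    exact ⟨by simp, by simpa using mul_nonneg hc (hA i j).2⟩

theorem Pos.sum {ι : Type*} (s : Finset ι) {f : ι → Matrix m m ℂ} (h : ∀ i ∈ s, Pos (f i)) :
    Pos (∑ i ∈ s, f i) :=
  Finset.sum_induction f Pos (fun _ _ => Pos.add) pos_zero h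

theorem Pos.transpose {A : Matrix m m ℂ} (hA : Pos A) : Pos Aᵀ := fun i j => hA j i

theorem Pos.conjTranspose_eq {A : Matrix m m ℂ} (hA : Pos A) : Aᴴ = Aᵀ := by
  ext i j
  simp only [Matrix.conjTranspose_apply, Matrix.transpose_apply]
  exact Complex.conj_eq_iff_im.2 (hA j i).1

theorem Pos.conjTranspose {A : Matrix m m ℂ} (hA : Pos A) : Pos Aᴴ := by
  rw [hA.conjTranspose_eq]; exact hA.transpose

theorem pos_diagonal [DecidableEq m] {d : m → ℝ} (hd : ∀ i, 0 ≤ d i) :
    Pos (diagonal fun i => ((d i : ℝ) : ℂ)) := fun i j => by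
  by_cases h : i = j
  · subst h; simp [hd]
  · simp [h]

theorem pos_one [DecidableEq m] : Pos (1 : Matrix m m ℂ) := fun i j => by
  by_cases h : i = j
  · subst h; simp
  · simp [h]

variable [Fintype m]

theorem Pos.mul {A B : Matrix m m ℂ} (hA : Pos A) (hB : Pos B) : Pos (A * B) := fun i j => by
  simp only [Matrix.mul_apply, Complex.im_sum, Complex.re_sum, Complex.mul_im, Complex.mul_re,
    (hA i _).1, (hB _ j).1]
  exact ⟨by simp, Finset.sum_nonneg fun k _ => by simpa using mul_nonneg (hA i k).2 (hB k j).2⟩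

theorem Pos.trace_re_nonneg {A : Matrix m m ℂ} (hA : Pos A) : 0 ≤ A.trace.re := by
  simp only [Matrix.trace, Matrix.diag, Complex.re_sum]
  exact Finset.sum_nonneg fun k _ => (hA k k).2

variable [DecidableEq m]

theorem Pos.pow {A : Matrix m m ℂ} (hA : Pos A) (k : ℕ) : Pos (A ^ k) := by
  induction k with
  | zero => simpa using pos_one
  | succ k ih => rw [pow_succ]; exact ih.mul hA


omit [Fintype m] [DecidableEq m] in
theorem isClosed_pos : IsClosed {A : Matrix m m ℂ | Pos A} := by
  have : {A : Matrix m m ℂ | Pos A} =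
      ⋂ i, ⋂ j, ({A : Matrix m m ℂ | (A i j).im = 0} ∩ {A | 0 ≤ (A i j).re}) := by
    ext A; simp [Pos]
  rw [this]
  refine isClosed_iInter fun i => isClosed_iInter fun j => IsClosed.inter ?_ ?_
  · exact isClosed_eq (by fun_prop) continuous_const
  · exact isClosed_le continuous_const (by fun_prop)

theorem Pos.exp {A : Matrix m m ℂ} (hA : Pos A) : Pos (NormedSpace.exp A) := by
  open scoped Matrix.Norms.Operator in
  have hs := NormedSpace.exp_series_hasSum_exp' (𝕂 := ℝ) A
  refine isClosed_pos.mem_of_tendsto hs (Eventually.of_forall fun s => ?_)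
  refine Pos.sum s fun k _ => ?_
  have : ((k.factorial : ℝ)⁻¹) • A ^ k = (((k.factorial : ℝ)⁻¹ : ℝ) : ℂ) • A ^ k := rfl
  rw [this]
  exact (hA.pow k).smul (by positivity)

theorem exp_smul_one (c : ℝ) :
    NormedSpace.exp ((c : ℂ) • (1 : Matrix m m ℂ)) = ((Real.exp c : ℝ) : ℂ) • 1 := by
  have e : (c : ℂ) • (1 : Matrix m m ℂ) = diagonal fun _ => (c : ℂ) := by
    ext i j; by_cases h : i = j <;> simp [h]
  rw [e, Matrix.exp_diagonal]
  ext i j
  by_cases h : i = j
  · subst h; simp [Pi.coe_exp, ← Complex.exp_eq_exp_ℂ]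
  · simp [h]

/-- a real matrix with nonnegative off-diagonal entries has a nonnegative exponential. -/
theorem pos_exp_of_offdiag {A : Matrix m m ℂ} (him : ∀ i j, (A i j).im = 0)
    (hoff : ∀ i j, i ≠ j → 0 ≤ (A i j).re) : Pos (NormedSpace.exp A) := by
  set c : ℝ := ∑ i, |(A i i).re| with hc
  have hp : Pos (A + (c : ℂ) • 1) := fun i j => by
    by_cases h : i = j
    · subst h
      have h1 : |(A i i).re| ≤ c :=
        Finset.single_le_sum (f := fun i => |(A i i).re|) (fun _ _ => abs_nonneg _)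
          (Finset.mem_univ i)
      have h2 := neg_abs_le (A i i).re
      simp only [Matrix.add_apply, Matrix.smul_apply, Matrix.one_apply_eq, smul_eq_mul, mul_one,
        Complex.add_im, Complex.add_re, him, Complex.ofReal_im, Complex.ofReal_re]
      exact ⟨by simp, by linarith⟩
    · simpa [h, him] using hoff i j h
  have e : A = (A + (c : ℂ) • 1) + ((-c : ℝ) : ℂ) • 1 := by
    push_cast; rw [neg_smul]; abel
  rw [e, Matrix.exp_add_of_commute, exp_smul_one]
  · exact hp.exp.mul (pos_one.smul (Real.exp_pos _).le)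
  · exact (Commute.one_right _).smul_right _

end pos

section gW
variable {m : Type} [Fintype m] [DecidableEq m]

theorem gW_zero (H : Matrix m m ℂ) : gW H 0 = 1 := by simp [gW]

theorem gW_add (H : Matrix m m ℂ) (s t : ℝ) : gW H (s + t) = gW H s * gW H t := by
  unfold gW
  rw [← Matrix.exp_add_of_commute]
  · congr 1; push_cast; rw [neg_add, add_smul]
  · exact ((Commute.refl H).smul_left _).smul_right _

theorem gW_herm {H : Matrix m m ℂ} (hH : H.IsHermitian) (t : ℝ) : (gW H t).IsHermitian := by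
  unfold gW
  refine Matrix.IsHermitian.exp ?_
  unfold Matrix.IsHermitian
  rw [Matrix.conjTranspose_smul, hH.eq]
  simp

theorem gW_transpose {H : Matrix m m ℂ} (hH : Hᵀ = H) (t : ℝ) : (gW H t)ᵀ = gW H t := by
  unfold gW
  rw [← Matrix.exp_transpose, Matrix.transpose_smul, hH]

theorem gW_commute {H A : Matrix m m ℂ} (h : Commute A H) (t : ℝ) : Commute A (gW H t) :=
  (h.smul_right _).exp_right

theorem hasDerivAt_gW_apply (H : Matrix m m ℂ) (t : ℝ) (i j : m) :
    HasDerivAt (fun s => gW H s i j) ((-(gW H t * H)) i j) t := by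
  open scoped Matrix.Norms.Operator in
  have h1 := hasDerivAt_exp_smul_const (𝕂 := ℝ) (-H) t
  have e : ∀ s : ℝ, gW H s = NormedSpace.exp (s • (-H)) := fun s => by
    unfold gW; congr 1
    rw [neg_smul, smul_neg]; rfl
  open scoped Matrix.Norms.Operator in
  let L : Matrix m m ℂ →L[ℝ] ℂ :=
    LinearMap.toContinuousLinearMap ((Matrix.entryLinearMap ℝ ℂ i j))
  have h2 := L.hasFDerivAt.comp_hasDerivAt t h1
  simp only [e]
  rw [← Matrix.mul_neg]
  exact h2

theorem continuous_gW (H : Matrix m m ℂ) : Continuous (gW H) :=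
  continuous_matrix fun i j =>
    continuous_iff_continuousAt.2 fun t => (hasDerivAt_gW_apply H t i j).continuousAt


theorem gW_diag_pos {H : Matrix m m ℂ} (hH : H.IsHermitian) (t : ℝ) (i : m) :
    (gW H t i i).im = 0 ∧ 0 < (gW H t i i).re := by
  have e : gW H t = (gW H (t / 2))ᴴ * gW H (t / 2) := by
    rw [(gW_herm hH _).eq, ← gW_add]; congr 1; ring
  have e2 : gW H t i i = ((∑ k, Complex.normSq (gW H (t / 2) k i) : ℝ) : ℂ) := by
    rw [e, Matrix.mul_apply]; push_cast
    refine Finset.sum_congr rfl fun k _ => ?_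
    rw [Matrix.conjTranspose_apply, Complex.normSq_eq_conj_mul_self]; rfl
  rw [e2, Complex.ofReal_im, Complex.ofReal_re]
  refine ⟨rfl, ?_⟩
  by_contra hneg
  have h0 : ∑ k, Complex.normSq (gW H (t / 2) k i) = 0 :=
    le_antisymm (not_lt.1 hneg) (Finset.sum_nonneg fun _ _ => Complex.normSq_nonneg _)
  rw [Finset.sum_eq_zero_iff_of_nonneg fun _ _ => Complex.normSq_nonneg _] at h0
  have h1 : (gW H (-(t / 2)) * gW H (t / 2)) i i = 0 := by
    rw [Matrix.mul_apply]
    refine Finset.sum_eq_zero fun k _ => ?_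
    rw [Complex.normSq_eq_zero.1 (h0 k (Finset.mem_univ k)), mul_zero]
  rw [← gW_add, neg_add_cancel, gW_zero] at h1
  simp at h1

theorem gZ_pos [Nonempty m] {H : Matrix m m ℂ} (hH : H.IsHermitian) (t : ℝ) :
    0 < (gW H t).trace.re := by
  simp only [Matrix.trace, Matrix.diag, Complex.re_sum]
  exact Finset.sum_pos (fun i _ => (gW_diag_pos hH t i).2) Finset.univ_nonempty

theorem gZ_nonneg {H : Matrix m m ℂ} (hH : H.IsHermitian) (t : ℝ) :
    0 ≤ (gW H t).trace.re := by
  simp only [Matrix.trace, Matrix.diag, Complex.re_sum]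
  exact Finset.sum_nonneg fun i _ => (gW_diag_pos hH t i).2.le

end gW

end Crest.Agent.N337
end

-- ▼ part N337/BasicH

/-!
# Row 337, basics II: abstract Gibbs expectation `gev` and Duhamel function `gduh`
-/

set_option autoImplicit false

namespace Crest.Agent.N337

open Filter Topology Matrix

variable {m : Type} [Fintype m] [DecidableEq m]

/-! ### linearity -/

theorem gev_zero (H : Matrix m m ℂ) (β : ℝ) : gev H β 0 = 0 := by simp [gev]

theorem gev_add (H : Matrix m m ℂ) (β : ℝ) (A B : Matrix m m ℂ) :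
    gev H β (A + B) = gev H β A + gev H β B := by
  simp [gev, Matrix.add_mul, add_div]

theorem gev_neg (H : Matrix m m ℂ) (β : ℝ) (A : Matrix m m ℂ) : gev H β (-A) = -gev H β A := by
  simp [gev, neg_div]

theorem gev_sub (H : Matrix m m ℂ) (β : ℝ) (A B : Matrix m m ℂ) :
    gev H β (A - B) = gev H β A - gev H β B := by
  rw [sub_eq_add_neg, gev_add, gev_neg]; ring

theorem gev_smul (H : Matrix m m ℂ) (β c : ℝ) (A : Matrix m m ℂ) :
    gev H β ((c : ℂ) • A) = c * gev H β A := by
  simp [gev, mul_div_assoc]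

theorem gev_sum {ι : Type*} (H : Matrix m m ℂ) (β : ℝ) (s : Finset ι) (f : ι → Matrix m m ℂ) :
    gev H β (∑ i ∈ s, f i) = ∑ i ∈ s, gev H β (f i) := by
  simp [gev, Finset.sum_mul, Matrix.trace_sum, Finset.sum_div]

theorem gev_one [Nonempty m] {H : Matrix m m ℂ} (hH : H.IsHermitian) (β : ℝ) : gev H β 1 = 1 := by
  rw [gev, Matrix.one_mul, div_self (gZ_pos hH β).ne']

theorem continuous_duhInt (H : Matrix m m ℂ) (β : ℝ) (A B : Matrix m m ℂ) :
    Continuous fun τ : ℝ => (A * gW H τ * B * gW H (β - τ)).trace.re := by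
  have h1 := continuous_gW H
  have h2 : Continuous fun τ : ℝ => gW H (β - τ) := h1.comp (by fun_prop)
  exact Complex.continuous_re.comp
    ((((continuous_const.matrix_mul h1).matrix_mul continuous_const).matrix_mul h2).matrix_trace)

theorem gduh_add_left (H : Matrix m m ℂ) (β : ℝ) (A A' B : Matrix m m ℂ) :
    gduh H β (A + A') B = gduh H β A B + gduh H β A' B := by
  unfold gduh
  rw [← add_div, ← intervalIntegral.integral_add
    ((continuous_duhInt H β A B).intervalIntegrable _ _)
    ((continuous_duhInt H β A' B).intervalIntegrable _ _)]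
  simp [Matrix.add_mul]

theorem gduh_add_right (H : Matrix m m ℂ) (β : ℝ) (A B B' : Matrix m m ℂ) :
    gduh H β A (B + B') = gduh H β A B + gduh H β A B' := by
  unfold gduh
  rw [← add_div, ← intervalIntegral.integral_add
    ((continuous_duhInt H β A B).intervalIntegrable _ _)
    ((continuous_duhInt H β A B').intervalIntegrable _ _)]
  simp [Matrix.add_mul, Matrix.mul_add]

theorem gduh_smul_left (H : Matrix m m ℂ) (β c : ℝ) (A B : Matrix m m ℂ) :
    gduh H β ((c : ℂ) • A) B = c * gduh H β A B := by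
  unfold gduh
  rw [← mul_div_assoc, ← intervalIntegral.integral_const_mul]
  simp

theorem gduh_smul_right (H : Matrix m m ℂ) (β c : ℝ) (A B : Matrix m m ℂ) :
    gduh H β A ((c : ℂ) • B) = c * gduh H β A B := by
  unfold gduh
  rw [← mul_div_assoc, ← intervalIntegral.integral_const_mul]
  simp

theorem gduh_zero_left (H : Matrix m m ℂ) (β : ℝ) (B : Matrix m m ℂ) : gduh H β 0 B = 0 := by
  simp [gduh]

theorem gduh_zero_right (H : Matrix m m ℂ) (β : ℝ) (A : Matrix m m ℂ) : gduh H β A 0 = 0 := by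
  simp [gduh]

theorem gduh_neg_left (H : Matrix m m ℂ) (β : ℝ) (A B : Matrix m m ℂ) :
    gduh H β (-A) B = -gduh H β A B := by
  have := gduh_smul_left H β (-1) A B
  simpa using this




theorem gduh_sum_left {ι : Type*} (H : Matrix m m ℂ) (β : ℝ) (s : Finset ι)
    (f : ι → Matrix m m ℂ) (B : Matrix m m ℂ) :
    gduh H β (∑ i ∈ s, f i) B = ∑ i ∈ s, gduh H β (f i) B := by
  classical
  induction s using Finset.induction_on with
  | empty => simp [gduh_zero_left]
  | insert a s ha ih => rw [Finset.sum_insert ha, Finset.sum_insert ha, gduh_add_left, ih]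

theorem gduh_sum_right {ι : Type*} (H : Matrix m m ℂ) (β : ℝ) (A : Matrix m m ℂ) (s : Finset ι)
    (f : ι → Matrix m m ℂ) :
    gduh H β A (∑ i ∈ s, f i) = ∑ i ∈ s, gduh H β A (f i) := by
  classical
  induction s using Finset.induction_on with
  | empty => simp [gduh_zero_right]
  | insert a s ha ih => rw [Finset.sum_insert ha, Finset.sum_insert ha, gduh_add_right, ih]

/-! ### symmetries -/

theorem gev_conjTranspose {H : Matrix m m ℂ} (hH : H.IsHermitian) (β : ℝ) (A : Matrix m m ℂ) :
    gev H β Aᴴ = gev H β A := by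
  unfold gev
  have : (Aᴴ * gW H β).trace = star (A * gW H β).trace := by
    rw [← Matrix.trace_conjTranspose, Matrix.conjTranspose_mul, (gW_herm hH β).eq,
      Matrix.trace_mul_comm]
  rw [this]; simp

theorem gev_transpose {H : Matrix m m ℂ} (hH : Hᵀ = H) (β : ℝ) (A : Matrix m m ℂ) :
    gev H β Aᵀ = gev H β A := by
  unfold gev
  rw [← Matrix.trace_transpose (A * gW H β), Matrix.transpose_mul, gW_transpose hH,
    Matrix.trace_mul_comm]


theorem gduh_comm (H : Matrix m m ℂ) (β : ℝ) (A B : Matrix m m ℂ) :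
    gduh H β A B = gduh H β B A := by
  unfold gduh
  have := intervalIntegral.integral_comp_sub_left
    (fun τ : ℝ => (A * gW H τ * B * gW H (β - τ)).trace.re) (a := 0) (b := β) β
  simp only [sub_self, sub_zero, sub_sub_cancel] at this
  rw [← this]
  congr 2
  funext τ
  rw [Matrix.mul_assoc (A * gW H (β - τ)), Matrix.trace_mul_comm, Matrix.mul_assoc (B * gW H τ)]

theorem gduh_conjTranspose {H : Matrix m m ℂ} (hH : H.IsHermitian) (β : ℝ) (A B : Matrix m m ℂ) :
    gduh H β Aᴴ Bᴴ = gduh H β A B := by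
  rw [gduh_comm]
  unfold gduh
  congr 2
  funext τ
  have : (Bᴴ * gW H τ * Aᴴ * gW H (β - τ)).trace =
      star (A * gW H τ * B * gW H (β - τ)).trace := by
    rw [← Matrix.trace_conjTranspose]
    simp only [Matrix.conjTranspose_mul, (gW_herm hH _).eq]
    rw [Matrix.trace_mul_comm (gW H (β - τ))]
    simp only [Matrix.mul_assoc]
  rw [this]; simp

theorem gduh_transpose {H : Matrix m m ℂ} (hH : Hᵀ = H) (β : ℝ) (A B : Matrix m m ℂ) :
    gduh H β Aᵀ Bᵀ = gduh H β A B := by
  rw [gduh_comm]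
  unfold gduh
  congr 2
  funext τ
  rw [← Matrix.trace_transpose (A * gW H τ * B * gW H (β - τ))]
  simp only [Matrix.transpose_mul, gW_transpose hH]
  rw [Matrix.trace_mul_comm (gW H (β - τ))]
  simp only [Matrix.mul_assoc]




/-! ### positivity, Cauchy-Schwarz -/

theorem gev_mono {H : Matrix m m ℂ} (hH : H.IsHermitian) {β : ℝ} (hW : Pos (gW H β))
    {A B : Matrix m m ℂ} (h : Pos (B - A)) : gev H β A ≤ gev H β B := by
  rw [← sub_nonneg, ← gev_sub]
  exact div_nonneg (h.mul hW).trace_re_nonneg (gZ_nonneg hH β)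

theorem gduh_nonneg_of_pos {H : Matrix m m ℂ} (hH : H.IsHermitian) {β : ℝ} (hβ : 0 ≤ β)
    (hW : ∀ t, 0 ≤ t → Pos (gW H t)) {A B : Matrix m m ℂ} (hA : Pos A) (hB : Pos B) :
    0 ≤ gduh H β A B := by
  refine div_nonneg (intervalIntegral.integral_nonneg hβ fun τ hτ => ?_) (gZ_nonneg hH β)
  exact (((hA.mul (hW τ hτ.1)).mul hB).mul (hW _ (sub_nonneg.2 hτ.2))).trace_re_nonneg

omit [DecidableEq m] in
theorem trace_star_nonneg (A : Matrix m m ℂ) : 0 ≤ (Aᴴ * A).trace.re := by
  simp only [Matrix.trace, Matrix.diag, Matrix.mul_apply, Matrix.conjTranspose_apply,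
    Complex.re_sum]
  refine Finset.sum_nonneg fun i _ => Finset.sum_nonneg fun k _ => ?_
  have : star (A k i) * A k i = ((Complex.normSq (A k i) : ℝ) : ℂ) := by
    rw [Complex.normSq_eq_conj_mul_self]; rfl
  rw [this, Complex.ofReal_re]
  exact Complex.normSq_nonneg _

theorem duhInt_star_nonneg {H : Matrix m m ℂ} (hH : H.IsHermitian) (s t : ℝ) (A : Matrix m m ℂ) :
    0 ≤ (A * gW H s * Aᴴ * gW H t).trace.re := by
  have hs : gW H s = gW H (s / 2) * gW H (s / 2) := by rw [← gW_add]; congr 1; ring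
  have ht : gW H t = gW H (t / 2) * gW H (t / 2) := by rw [← gW_add]; congr 1; ring
  have := trace_star_nonneg (gW H (s / 2) * Aᴴ * gW H (t / 2))
  simp only [Matrix.conjTranspose_mul, (gW_herm hH _).eq, Matrix.conjTranspose_conjTranspose]
    at this
  rw [Matrix.mul_assoc (gW H (t / 2)), Matrix.trace_mul_comm] at this
  rw [hs, ht]
  simpa only [Matrix.mul_assoc] using this

theorem gev_star_nonneg {H : Matrix m m ℂ} (hH : H.IsHermitian) (β : ℝ) (A : Matrix m m ℂ) :
    0 ≤ gev H β (Aᴴ * A) := by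
  have := duhInt_star_nonneg hH 0 β Aᴴ
  rw [gW_zero, Matrix.mul_one, Matrix.conjTranspose_conjTranspose] at this
  exact div_nonneg this (gZ_nonneg hH β)

theorem gduh_star_nonneg {H : Matrix m m ℂ} (hH : H.IsHermitian) {β : ℝ} (hβ : 0 ≤ β)
    (A : Matrix m m ℂ) : 0 ≤ gduh H β A Aᴴ :=
  div_nonneg (intervalIntegral.integral_nonneg hβ fun _ _ => duhInt_star_nonneg hH _ _ A)
    (gZ_nonneg hH β)

theorem cs_of_quad {a b c : ℝ} (h : ∀ t : ℝ, 0 ≤ a * (t * t) + 2 * b * t + c) :
    b ^ 2 ≤ a * c := by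
  have := discrim_le_zero h
  unfold discrim at this
  nlinarith

theorem gev_cs {H : Matrix m m ℂ} (hH : H.IsHermitian) (β : ℝ) (A B : Matrix m m ℂ) :
    gev H β (Aᴴ * B) ^ 2 ≤ gev H β (Aᴴ * A) * gev H β (Bᴴ * B) := by
  refine cs_of_quad fun t => ?_
  have h := gev_star_nonneg hH β ((t : ℂ) • A + B)
  have e : gev H β (Bᴴ * A) = gev H β (Aᴴ * B) := by
    rw [← gev_conjTranspose hH, Matrix.conjTranspose_mul, Matrix.conjTranspose_conjTranspose]
  have e2 : ((t : ℂ) • A)ᴴ = (t : ℂ) • Aᴴ := by simp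
  simp only [Matrix.conjTranspose_add, e2, Matrix.add_mul, Matrix.mul_add, Matrix.smul_mul,
    Matrix.mul_smul, gev_add, gev_smul, e] at h
  nlinarith


end Crest.Agent.N337
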