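import Mathlib
import Crest.Agent.N337.BasicH

-- ▼ part N337/MomR
section

/-!
# Row 337: the real-variable core of the moment inequalities
-/

set_option autoImplicit false

namespace Crest.Agent.N337

/-- `κ(w) = ∫₀^β e^{τ w} dτ`. -/
noncomputable def kap (β w : ℝ) : ℝ := ∫ τ in (0 : ℝ)..β, Real.exp (τ * w)

theorem kap_mul (β w : ℝ) : kap β w * w = Real.exp (β * w) - 1 := by
  unfold kap
  rw [← intervalIntegral.integral_mul_const,
    intervalIntegral.integral_eq_sub_of_hasDerivAt (f := fun τ => Real.exp (τ * w))]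
  · simp
  · intro τ _
    simpa using ((hasDerivAt_id τ).mul_const w).exp
  · exact Continuous.intervalIntegrable (by fun_prop) _ _

theorem kap_pos {β : ℝ} (hβ : 0 < β) (w : ℝ) : 0 < kap β w :=
  intervalIntegral.intervalIntegral_pos_of_pos (Continuous.intervalIntegrable (by fun_prop) _ _)
    (fun _ => Real.exp_pos _) hβ

theorem le_kap {β : ℝ} (hβ : 0 < β) {w : ℝ} (hw : 0 ≤ w) : β ≤ kap β w := by
  have : ∫ _ in (0 : ℝ)..β, (1 : ℝ) ≤ kap β w :=
    intervalIntegral.integral_mono_on hβ.le (Continuous.intervalIntegrable (by fun_prop) _ _)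
      (Continuous.intervalIntegrable (by fun_prop) _ _)
      fun τ hτ => Real.one_le_exp (mul_nonneg hτ.1 hw)
  simpa using this

theorem kap_tangent {β : ℝ} (hβ : 0 < β) (E : ℝ) : ∃ μ : ℝ, 0 ≤ μ ∧ μ ≤ β * kap β E ∧
    ∀ w, kap β E + μ * (w - E) ≤ kap β w := by
  refine ⟨∫ τ in (0 : ℝ)..β, τ * Real.exp (τ * E), ?_, ?_, fun w => ?_⟩
  · exact intervalIntegral.integral_nonneg hβ.le fun τ hτ => mul_nonneg hτ.1 (Real.exp_pos _).le
  · unfold kap
    rw [← intervalIntegral.integral_const_mul]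
    exact intervalIntegral.integral_mono_on hβ.le (Continuous.intervalIntegrable (by fun_prop) _ _)
      (Continuous.intervalIntegrable (by fun_prop) _ _)
      fun τ hτ => mul_le_mul_of_nonneg_right hτ.2 (Real.exp_pos _).le
  · unfold kap
    rw [← intervalIntegral.integral_mul_const, ← intervalIntegral.integral_add
      (Continuous.intervalIntegrable (by fun_prop) _ _)
      (Continuous.intervalIntegrable (by fun_prop) _ _)]
    refine intervalIntegral.integral_mono_on hβ.le
      (Continuous.intervalIntegrable (by fun_prop) _ _)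
      (Continuous.intervalIntegrable (by fun_prop) _ _) fun τ _ => ?_
    have h1 := Real.add_one_le_exp (τ * (w - E))
    have h2 : Real.exp (τ * w) = Real.exp (τ * E) * Real.exp (τ * (w - E)) := by
      rw [← Real.exp_add]; congr 1; ring
    rw [h2]
    nlinarith [Real.exp_pos (τ * E)]

theorem kap_lower {β : ℝ} (hβ : 0 < β) {w r : ℝ} (hr : 0 ≤ r) (hw : -w ≤ r) :
    β ≤ kap β w * (1 + β * r) := by
  have hk := kap_pos hβ w
  rcases le_or_gt 0 w with h | h
  · have := le_kap hβ h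
    nlinarith [mul_nonneg hk.le (mul_nonneg hβ.le hr)]
  · have h1 := kap_mul β w
    have h2 := Real.add_one_le_exp (-(β * w))
    have h3 : Real.exp (β * w) * Real.exp (-(β * w)) = 1 := by rw [← Real.exp_add]; simp
    have h4 : Real.exp (β * w) * (1 - β * w) ≤ 1 := by nlinarith [Real.exp_pos (β * w)]
    have h5 : β * (-w) ≤ kap β w * (1 - β * w) * (-w) := by
      have : kap β w * (1 - β * w) * (-w) = -(kap β w * w) * (1 - β * w) := by ring
      rw [this, h1]; linarith
    have h6 : β ≤ kap β w * (1 - β * w) := le_of_mul_le_mul_right h5 (by linarith)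
    nlinarith [mul_nonneg hk.le (mul_nonneg hβ.le (by linarith : 0 ≤ r + w))]

theorem inv_kap_le {β : ℝ} (hβ : 0 < β) {E : ℝ} (hE : 0 < E) : ∃ a : ℝ, 0 ≤ a ∧ a ≤ 1 ∧
    ∀ w, 1 ≤ kap β w * (1 / kap β E - a * (w - E) + 6 * β * (w - E) ^ 2) := by
  obtain ⟨μ, h0, h1, h2⟩ := kap_tangent hβ E
  have hK0 := le_kap hβ hE.le
  have hK := kap_pos hβ E
  set K0 := kap β E with hK0def
  set lam := μ / K0 with hlam
  have hl0 : 0 ≤ lam := div_nonneg h0 hK.le
  have hl1 : lam ≤ β := by rw [hlam, div_le_iff₀ hK]; exact h1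
  refine ⟨lam / K0, div_nonneg hl0 hK.le, by rw [div_le_one hK]; linarith, fun w => ?_⟩
  have hk := kap_pos hβ w
  set r := w - E with hr
  rcases le_or_gt (-(1 / 2)) (β * r) with h | h
  · set s := lam * r with hs
    have hs1 : -(1 / 2) ≤ s := by
      rcases le_or_gt 0 r with h' | h'
      · have := mul_nonneg hl0 h'; linarith
      · nlinarith
    have h3 : K0 * (1 + s) ≤ kap β w := by
      have : μ = lam * K0 := by rw [hlam]; field_simp
      have h4 := h2 w
      rw [this] at h4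
      nlinarith
    have h4 : s ^ 2 ≤ β ^ 2 * r ^ 2 := by
      rw [hs, mul_pow]
      exact mul_le_mul_of_nonneg_right (pow_le_pow_left₀ hl0 hl1 2) (sq_nonneg _)
    have h5 : (1 - s + 2 * s ^ 2) / K0 ≤ 1 / K0 - lam / K0 * r + 6 * β * r ^ 2 := by
      rw [div_le_iff₀ hK]
      have e : (1 / K0 - lam / K0 * r + 6 * β * r ^ 2) * K0 = 1 - s + 6 * β * r ^ 2 * K0 := by
        rw [hs]; field_simp
      rw [e]
      have : β ^ 2 * r ^ 2 ≤ β * r ^ 2 * K0 := by
        nlinarith [mul_nonneg hβ.le (sq_nonneg r)]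
      nlinarith [mul_nonneg (mul_nonneg hβ.le (sq_nonneg r)) hK.le]
    have h6 : 0 ≤ (1 - s + 2 * s ^ 2) / K0 := div_nonneg (by nlinarith) hK.le
    calc (1 : ℝ) ≤ (1 + s) * (1 - s + 2 * s ^ 2) := by nlinarith [sq_nonneg s]
      _ = K0 * (1 + s) * ((1 - s + 2 * s ^ 2) / K0) := by field_simp
      _ ≤ kap β w * ((1 - s + 2 * s ^ 2) / K0) := mul_le_mul_of_nonneg_right h3 h6
      _ ≤ _ := mul_le_mul_of_nonneg_left h5 hk.le
  · have hr0 : r < 0 := by
      by_contra hc
      have := mul_nonneg hβ.le (not_lt.1 hc); linarith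
    have h3 := kap_lower hβ (w := w) (r := -r) (by linarith) (by rw [hr]; linarith)
    have h4 : 1 + β * -r ≤ 6 * β * r ^ 2 * β := by nlinarith
    have h5 : β ≤ kap β w * (6 * β * r ^ 2) * β := by nlinarith
    have h6 : 1 ≤ kap β w * (6 * β * r ^ 2) := le_of_mul_le_mul_right (by linarith) hβ
    have h7 : 0 ≤ 1 / K0 - lam / K0 * r := by
      have := mul_nonneg (div_nonneg hl0 hK.le) (by linarith : 0 ≤ -r)
      have := one_div_pos.2 hK
      linarith
    nlinarith [mul_nonneg hk.le h7]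

section sums
variable {ι : Type} [Fintype ι]

/-- Gibbs variational (Jensen) inequality. -/
theorem eeb_real {q x : ι → ℝ} (hq : ∀ i, 0 ≤ q i) (hu : 0 < ∑ i, q i)
    (hv : 0 < ∑ i, q i * Real.exp (x i)) :
    ∑ i, q i * x i ≤ (∑ i, q i) * Real.log ((∑ i, q i * Real.exp (x i)) / ∑ i, q i) := by
  set u := ∑ i, q i with hu'
  set v := ∑ i, q i * Real.exp (x i) with hv'
  have h : ∀ i, q i * x i ≤ q i * Real.log (v / u) + (q i * Real.exp (x i) * (u / v) - q i) := by
    intro i
    have h1 := Real.add_one_le_exp (x i - Real.log (v / u))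
    rw [Real.exp_sub, Real.exp_log (div_pos hv hu), div_div_eq_mul_div, mul_div_assoc] at h1
    nlinarith [mul_le_mul_of_nonneg_left h1 (hq i)]
  refine (Finset.sum_le_sum fun i _ => h i).trans (le_of_eq ?_)
  rw [Finset.sum_add_distrib, Finset.sum_sub_distrib, ← Finset.sum_mul, ← Finset.sum_mul,
    ← hu', ← hv']
  field_simp
  ring

theorem mom_real {q w : ι → ℝ} {β u v m0 m1 m2 : ℝ} (hq : ∀ i, 0 ≤ q i) (hβ : 0 < β)
    (hu : u = ∑ i, q i) (hv : v = ∑ i, q i * Real.exp (β * w i))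
    (hm0 : m0 = ∑ i, q i * kap β (w i)) (hm1 : m1 = ∑ i, q i * w i)
    (hm2 : m2 = ∑ i, q i * Real.exp (β * w i) * w i - m1) :
    0 ≤ u ∧ 0 ≤ v ∧ 0 ≤ m0 ∧ 0 ≤ m2 ∧ (v - u) ^ 2 ≤ m0 * m2 ∧
    (0 < u → 0 < v → β * m1 ≤ u * Real.log (v / u)) ∧
    (∀ E : ℝ, 0 < E → u < v → m2 ≤ E * (v - u) → (v - u) / (Real.exp (β * E) - 1) ≤ u) ∧
    (∀ E : ℝ, 0 < E → m2 = E * (v - u) →
      u ≤ (v - u) / (Real.exp (β * E) - 1) +
        (m0 - (v - u) / E) * (1 + β * E + 6 * (β * E) ^ 2) / β) := by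
  have hν : ∀ i, 0 ≤ q i * kap β (w i) := fun i => mul_nonneg (hq i) (kap_pos hβ _).le
  have e1 : v - u = ∑ i, q i * kap β (w i) * w i := by
    rw [hu, hv, ← Finset.sum_sub_distrib]
    exact Finset.sum_congr rfl fun i _ => by rw [mul_assoc, kap_mul]; ring
  have e2 : m2 = ∑ i, q i * kap β (w i) * w i ^ 2 := by
    rw [hm2, hm1, ← Finset.sum_sub_distrib]
    refine Finset.sum_congr rfl fun i _ => ?_
    have := kap_mul β (w i)
    rw [pow_two, ← mul_assoc, mul_assoc (q i) (kap β (w i)), this]; ring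
  have hu0 : 0 ≤ u := hu ▸ Finset.sum_nonneg fun i _ => hq i
  have hA : 0 < u → 0 < v → β * m1 ≤ u * Real.log (v / u) := fun h1 h2 => by
    have := eeb_real (x := fun i => β * w i) hq (hu ▸ h1) (hv ▸ h2)
    rw [← hu, ← hv] at this
    refine le_trans (le_of_eq ?_) this
    rw [hm1, Finset.mul_sum]
    exact Finset.sum_congr rfl fun i _ => by ring
  have hexp : ∀ E : ℝ, 0 < E → 0 < Real.exp (β * E) - 1 := fun E hE =>
    sub_pos.2 (Real.one_lt_exp_iff.2 (mul_pos hβ hE))
  refine ⟨hu0, hv ▸ Finset.sum_nonneg fun i _ => mul_nonneg (hq i) (Real.exp_pos _).le,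
    hm0 ▸ Finset.sum_nonneg fun i _ => hν i,
    e2 ▸ Finset.sum_nonneg fun i _ => mul_nonneg (hν i) (sq_nonneg _), ?_, hA, ?_, ?_⟩
  · rw [e1, e2, hm0]
    refine Finset.sum_sq_le_sum_mul_sum_of_sq_le_mul _ (fun i _ => hν i)
      (fun i _ => mul_nonneg (hν i) (sq_nonneg _)) fun i _ => le_of_eq (by ring)
  · intro E hE huv hm
    have hup : 0 < u := by
      rcases hu0.eq_or_lt with h | h
      · have h0 := (Finset.sum_eq_zero_iff_of_nonneg fun i _ => hq i).1 (hu ▸ h.symm)
        have : v = 0 := by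
          rw [hv]; exact Finset.sum_eq_zero fun i hi => by rw [h0 i hi, zero_mul]
        linarith
      · exact h
    have hvp : 0 < v := hup.trans huv
    have e3 : ∑ i, q i * Real.exp (β * w i) * Real.exp (-(β * w i)) = u := by
      rw [hu]
      exact Finset.sum_congr rfl fun i _ => by rw [mul_assoc, ← Real.exp_add]; simp
    have hB := eeb_real (q := fun i => q i * Real.exp (β * w i)) (x := fun i => -(β * w i))
      (fun i => mul_nonneg (hq i) (Real.exp_pos _).le) (hv ▸ hvp) (e3 ▸ hup)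
    rw [e3, ← hv] at hB
    have e4 : ∑ i, q i * Real.exp (β * w i) * -(β * w i) = -(β * (m2 + m1)) := by
      rw [hm2, sub_add_cancel, Finset.mul_sum, ← Finset.sum_neg_distrib]
      exact Finset.sum_congr rfl fun i _ => by ring
    have e5 : Real.log (u / v) = -Real.log (v / u) := by
      rw [← Real.log_inv, inv_div]
    rw [e4, e5] at hB
    have h1 := hA hup hvp
    have h2 : (v - u) * Real.log (v / u) ≤ (v - u) * (β * E) := by nlinarith
    have h3 : Real.log (v / u) ≤ β * E := le_of_mul_le_mul_left h2 (by linarith)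
    rw [Real.log_le_iff_le_exp (div_pos hvp hup), div_le_iff₀ hup] at h3
    rw [div_le_iff₀ (hexp E hE)]
    linarith
  · intro E hE hm
    obtain ⟨a, ha0, ha1, ha⟩ := inv_kap_le hβ hE
    set D := m0 - (v - u) / E with hD
    have hvu : v - u = E * (m0 - D) := by rw [hD]; field_simp; ring
    have s1 : ∑ i, q i * kap β (w i) * (w i - E) = -(E * D) := by
      simp only [mul_sub, Finset.sum_sub_distrib, ← Finset.sum_mul, ← e1, ← hm0]
      rw [hvu]; ring
    have s2 : ∑ i, q i * kap β (w i) * (w i - E) ^ 2 = E ^ 2 * D := by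
      have : ∀ i, q i * kap β (w i) * (w i - E) ^ 2 = q i * kap β (w i) * w i ^ 2 -
          q i * kap β (w i) * w i * (2 * E) + q i * kap β (w i) * E ^ 2 := fun i => by ring
      simp only [this, Finset.sum_add_distrib, Finset.sum_sub_distrib, ← Finset.sum_mul, ← e1,
        ← e2, ← hm0]
      rw [hm, hvu]; ring
    have hD0 : 0 ≤ D := by
      have : 0 ≤ E ^ 2 * D :=
        s2 ▸ Finset.sum_nonneg fun i _ => mul_nonneg (hν i) (sq_nonneg _)
      exact nonneg_of_mul_nonneg_right this (by positivity)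
    have h1 : u ≤ m0 * (1 / kap β E) + a * (E * D) + 6 * β * (E ^ 2 * D) := by
      have : u ≤ ∑ i, q i * (kap β (w i) * (1 / kap β E - a * (w i - E) + 6 * β * (w i - E) ^ 2)) := by
        rw [hu]
        exact Finset.sum_le_sum fun i _ => le_mul_of_one_le_right (hq i) (ha (w i))
      refine this.trans (le_of_eq ?_)
      rw [← s2, ← neg_neg (E * D), ← s1, hm0]
      simp only [Finset.sum_mul, Finset.mul_sum, mul_neg, ← Finset.sum_neg_distrib,
        ← Finset.sum_add_distrib]
      exact Finset.sum_congr rfl fun i _ => by ring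
    have hK := kap_pos hβ E
    have e6 : (v - u) / (Real.exp (β * E) - 1) = (m0 - D) * (1 / kap β E) := by
      rw [← kap_mul, hvu]; field_simp
    have h2 : D * (1 / kap β E) ≤ D * (1 / β) :=
      mul_le_mul_of_nonneg_left (one_div_le_one_div_of_le hβ (le_kap hβ hE.le)) hD0
    have h3 : a * (E * D) ≤ E * D := mul_le_of_le_one_left (mul_nonneg hE.le hD0) ha1
    have e7 : D * (1 + β * E + 6 * (β * E) ^ 2) / β =
        D * (1 / β) + E * D + 6 * β * (E ^ 2 * D) := by field_simp
    rw [e6, e7]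
    nlinarith

end sums

end Crest.Agent.N337
end

-- ▼ part N337/Mom

/-!
# Row 337: the moment inequalities `MomStmt`
-/

set_option autoImplicit false

namespace Crest.Agent.N337

open Matrix

variable {m : Type} [Fintype m] [DecidableEq m]

theorem exists_unitary_diag {H : Matrix m m ℂ} (hH : H.IsHermitian) :
    ∃ (U : Matrix m m ℂ) (l : m → ℝ), Uᴴ * U = 1 ∧ U * Uᴴ = 1 ∧
      Uᴴ * H * U = diagonal fun i => ((l i : ℝ) : ℂ) := by
  have h1 : (hH.eigenvectorUnitary : Matrix m m ℂ)ᴴ * hH.eigenvectorUnitary = 1 :=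
    Unitary.coe_star_mul_self hH.eigenvectorUnitary
  have h2 : (hH.eigenvectorUnitary : Matrix m m ℂ) * (hH.eigenvectorUnitary : Matrix m m ℂ)ᴴ = 1 :=
    Unitary.coe_mul_star_self hH.eigenvectorUnitary
  refine ⟨(hH.eigenvectorUnitary : Matrix m m ℂ), hH.eigenvalues, h1, h2, ?_⟩
  have h := hH.spectral_theorem
  rw [Unitary.conjStarAlgAut_apply] at h
  have h3 : H = (hH.eigenvectorUnitary : Matrix m m ℂ) *
      diagonal (fun i => ((hH.eigenvalues i : ℝ) : ℂ)) *
        (hH.eigenvectorUnitary : Matrix m m ℂ)ᴴ := h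
  generalize (hH.eigenvectorUnitary : Matrix m m ℂ) = U at h1 h2 h3
  generalize hH.eigenvalues = l at h3
  rw [h3, ← Matrix.mul_assoc, ← Matrix.mul_assoc, h1, Matrix.one_mul, Matrix.mul_assoc, h1,
    Matrix.mul_one]

section conj
variable {U : Matrix m m ℂ} (h1 : Uᴴ * U = 1) (h2 : U * Uᴴ = 1)
include h2

theorem conj_mul (A B : Matrix m m ℂ) : Uᴴ * A * U * (Uᴴ * B * U) = Uᴴ * (A * B) * U := by
  calc _ = Uᴴ * A * (U * Uᴴ) * B * U := by simp only [Matrix.mul_assoc]
    _ = _ := by rw [h2, Matrix.mul_one]; simp only [Matrix.mul_assoc]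

theorem conj_trace (A : Matrix m m ℂ) : (Uᴴ * A * U).trace = A.trace := by
  rw [Matrix.trace_mul_comm, ← Matrix.mul_assoc, h2, Matrix.one_mul]

include h1
theorem gW_conj (H : Matrix m m ℂ) (t : ℝ) : gW (Uᴴ * H * U) t = Uᴴ * gW H t * U := by
  have hU : IsUnit U := ⟨⟨U, Uᴴ, h2, h1⟩, rfl⟩
  have hinv : U⁻¹ = Uᴴ := Matrix.inv_eq_right_inv h2
  unfold gW
  rw [← hinv, ← Matrix.exp_conj' _ _ hU, Matrix.mul_smul, Matrix.smul_mul]

theorem gev_conj (H A : Matrix m m ℂ) (β : ℝ) :
    gev (Uᴴ * H * U) β (Uᴴ * A * U) = gev H β A := by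
  simp only [gev, gW_conj h1 h2, conj_mul h2, conj_trace h2]

theorem gduh_conj (H A B : Matrix m m ℂ) (β : ℝ) :
    gduh (Uᴴ * H * U) β (Uᴴ * A * U) (Uᴴ * B * U) = gduh H β A B := by
  simp only [gduh, gW_conj h1 h2, conj_mul h2, conj_trace h2]

end conj

theorem gW_diagonal (l : m → ℝ) (t : ℝ) : gW (diagonal fun i => ((l i : ℝ) : ℂ)) t =
    diagonal fun i => ((Real.exp (-(t * l i)) : ℝ) : ℂ) := by
  unfold gW
  rw [← Matrix.diagonal_smul, Matrix.exp_diagonal]
  congr 1; funext i
  rw [Pi.coe_exp, ← Complex.exp_eq_exp_ℂ, Complex.ofReal_exp]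
  congr 1; simp

theorem star_mul_self_re (z : ℂ) (a : ℝ) : (star z * (z * (a : ℂ))).re = Complex.normSq z * a := by
  rw [← mul_assoc, Complex.re_mul_ofReal, Complex.normSq_apply]
  simp

theorem mom_diag [Nonempty m] (l : m → ℝ) (B : Matrix m m ℂ) (β : ℝ) :
    ∃ q w : m × m → ℝ, (∀ p, 0 ≤ q p) ∧
      let H : Matrix m m ℂ := diagonal fun i => ((l i : ℝ) : ℂ)
      gev H β (Bᴴ * B) = ∑ p, q p ∧ gev H β (B * Bᴴ) = ∑ p, q p * Real.exp (β * w p) ∧
      gduh H β B Bᴴ = ∑ p, q p * kap β (w p) ∧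
      gev H β (Bᴴ * (B * H - H * B)) = ∑ p, q p * w p ∧
      gev H β ((B * H - H * B) * Bᴴ) = ∑ p, q p * Real.exp (β * w p) * w p := by
  set H : Matrix m m ℂ := diagonal fun i => ((l i : ℝ) : ℂ) with hH
  have hherm : H.IsHermitian := by
    unfold Matrix.IsHermitian
    rw [hH, Matrix.diagonal_conjTranspose]; congr 1; funext i; simp
  set Z := (gW H β).trace.re with hZ
  have hZ0 : 0 < Z := gZ_pos hherm β
  have hC : ∀ i j, (B * H - H * B) i j = B i j * ((l j - l i : ℝ) : ℂ) := fun i j => by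
    simp only [hH, Matrix.sub_apply, Matrix.mul_diagonal, Matrix.diagonal_mul]
    push_cast; ring
  have hev : ∀ A : Matrix m m ℂ, gev H β A = (∑ i, (A i i).re * Real.exp (-(β * l i))) / Z :=
    fun A => by
      unfold gev
      rw [← hZ, hH, gW_diagonal]
      simp only [Matrix.trace, Matrix.diag_apply, Matrix.mul_diagonal, Complex.re_sum,
        Complex.re_mul_ofReal]
  have hns : ∀ z : ℂ, (star z * z).re = Complex.normSq z := fun z => by
    simpa using star_mul_self_re z 1
  have hx : ∀ i j, Real.exp (-(β * l i)) = Real.exp (-(β * l j)) * Real.exp (β * (l j - l i)) :=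
    fun i j => by rw [← Real.exp_add]; congr 1; ring
  refine ⟨fun p => Complex.normSq (B p.1 p.2) * Real.exp (-(β * l p.2)) / Z,
    fun p => l p.2 - l p.1, fun p => div_nonneg (mul_nonneg (Complex.normSq_nonneg _)
      (Real.exp_pos _).le) hZ0.le, ?_, ?_, ?_, ?_, ?_⟩
  · rw [hev, Fintype.sum_prod_type_right, Finset.sum_div]
    refine Finset.sum_congr rfl fun j _ => ?_
    simp only [Matrix.mul_apply, Matrix.conjTranspose_apply, Complex.re_sum, hns, Finset.sum_mul,
      Finset.sum_div]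
  · rw [hev, Fintype.sum_prod_type, Finset.sum_div]
    refine Finset.sum_congr rfl fun i _ => ?_
    simp only [Matrix.mul_apply, Matrix.conjTranspose_apply, Complex.re_sum, Finset.sum_mul,
      Finset.sum_div]
    refine Finset.sum_congr rfl fun j _ => ?_
    rw [mul_comm (B i j), hns, hx i j]; ring
  · rw [gduh_comm]
    unfold gduh
    have : ∀ τ : ℝ, (Bᴴ * gW H τ * B * gW H (β - τ)).trace.re = ∑ p : m × m,
        Complex.normSq (B p.1 p.2) * Real.exp (-(β * l p.2)) * Real.exp (τ * (l p.2 - l p.1)) :=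
      fun τ => by
        rw [hH, gW_diagonal, gW_diagonal, Fintype.sum_prod_type_right]
        simp only [Matrix.trace, Matrix.diag_apply, Matrix.mul_diagonal, Complex.re_sum,
          Complex.re_mul_ofReal]
        refine Finset.sum_congr rfl fun j _ => ?_
        rw [Matrix.mul_apply, Complex.re_sum, Finset.sum_mul]
        refine Finset.sum_congr rfl fun i _ => ?_
        rw [Matrix.mul_diagonal, Matrix.conjTranspose_apply, mul_assoc, mul_comm _ (B i j),
          star_mul_self_re, mul_assoc, mul_assoc, ← Real.exp_add, ← Real.exp_add]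
        congr 2; ring
    simp only [this]
    rw [intervalIntegral.integral_finsetSum fun p _ =>
      Continuous.intervalIntegrable (by fun_prop) _ _, ← hZ, Finset.sum_div]
    refine Finset.sum_congr rfl fun p _ => ?_
    rw [intervalIntegral.integral_const_mul, kap]; ring
  · rw [hev, Fintype.sum_prod_type_right, Finset.sum_div]
    refine Finset.sum_congr rfl fun j _ => ?_
    rw [Matrix.mul_apply, Complex.re_sum, Finset.sum_mul, Finset.sum_div]
    refine Finset.sum_congr rfl fun i _ => ?_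
    rw [Matrix.conjTranspose_apply, hC, star_mul_self_re]; ring
  · rw [hev, Fintype.sum_prod_type, Finset.sum_div]
    refine Finset.sum_congr rfl fun i _ => ?_
    rw [Matrix.mul_apply, Complex.re_sum, Finset.sum_mul, Finset.sum_div]
    refine Finset.sum_congr rfl fun j _ => ?_
    rw [Matrix.conjTranspose_apply, hC, mul_comm _ (star (B i j)), star_mul_self_re, hx i j]
    ring

/-- **(M)** the moment inequalities. -/
theorem momStmt : MomStmt := by
  intro m _ _ _ H B β hH hβ
  obtain ⟨U, l, h1, h2, h3⟩ := exists_unitary_diag hH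
  obtain ⟨q, w, hq, e1, e2, e3, e4, e5⟩ := mom_diag l (Uᴴ * B * U) β
  have hct : (Uᴴ * B * U)ᴴ = Uᴴ * Bᴴ * U := by
    simp only [Matrix.conjTranspose_mul, Matrix.conjTranspose_conjTranspose, Matrix.mul_assoc]
  have hsub : ∀ A A' : Matrix m m ℂ, Uᴴ * A * U - Uᴴ * A' * U = Uᴴ * (A - A') * U := fun A A' => by
    rw [Matrix.mul_sub, Matrix.sub_mul]
  simp only [← h3, hct, conj_mul h2, hsub, gev_conj h1 h2, gduh_conj h1 h2] at e1 e2 e3 e4 e5
  exact mom_real hq hβ e1 e2 e3 e4 (by rw [gev_sub, e5])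

end Crest.Agent.N337
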