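import Crest.Agent.N337.BasicH

/-!
# Row 337, basics III: one-site operators and the spin algebra
-/

set_option autoImplicit false

namespace Crest.Agent.N337

open Crest.MathPhysics.SpinModel Filter Topology Matrix

variable {X : Type} [Fintype X] [DecidableEq X] {n : ℕ}

/-! ### `siteOpOn` -/

theorem site_apply (x : X) (A : Matrix (Fin (n + 1)) (Fin (n + 1)) ℂ) (σ τ : X → Fin (n + 1)) :
    siteOpOn x A σ τ = if (∀ y, y ≠ x → σ y = τ y) then A (σ x) (τ x) else 0 := rfl

theorem site_mul_apply {κ : Type} (x : X) (A : Matrix (Fin (n + 1)) (Fin (n + 1)) ℂ)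
    (M : Matrix (X → Fin (n + 1)) κ ℂ) (σ : X → Fin (n + 1)) (τ : κ) :
    (siteOpOn x A * M) σ τ = ∑ i, A (σ x) i * M (Function.update σ x i) τ := by
  rw [Matrix.mul_apply]
  symm
  refine Finset.sum_of_injOn (fun i => Function.update σ x i)
    (fun i _ j _ h => Function.update_injective σ x h) (fun _ _ => Finset.mem_univ _) ?_ ?_
  · intro ρ _ hρ
    rw [site_apply, if_neg, zero_mul]
    intro h
    refine hρ ⟨ρ x, by simp, ?_⟩
    funext y
    by_cases hy : y = x
    · subst hy; simp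
    · simp [hy, h y hy]
  · intro i _
    rw [site_apply, if_pos]
    · simp
    · intro y hy; simp [hy]

theorem site_mul (x : X) (A B : Matrix (Fin (n + 1)) (Fin (n + 1)) ℂ) :
    siteOpOn x A * siteOpOn x B = siteOpOn x (A * B) := by
  ext σ τ
  rw [site_mul_apply, site_apply]
  have : ∀ i, (∀ y, y ≠ x → Function.update σ x i y = τ y) ↔ ∀ y, y ≠ x → σ y = τ y := fun i =>
    forall_congr' fun y => forall_congr' fun hy => by simp [hy]
  simp only [site_apply, this, Function.update_self]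
  split_ifs
  · rw [Matrix.mul_apply]
  · simp

theorem site_mul_site_apply {x y : X} (hxy : x ≠ y) (A B : Matrix (Fin (n + 1)) (Fin (n + 1)) ℂ)
    (σ τ : X → Fin (n + 1)) : (siteOpOn x A * siteOpOn y B) σ τ =
      if (∀ z, z ≠ x → z ≠ y → σ z = τ z) then A (σ x) (τ x) * B (σ y) (τ y) else 0 := by
  rw [site_mul_apply, Finset.sum_eq_single (τ x)]
  · rw [site_apply, Function.update_of_ne hxy.symm]
    have : (∀ z, z ≠ y → Function.update σ x (τ x) z = τ z) ↔ ∀ z, z ≠ x → z ≠ y → σ z = τ z := by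
      refine forall_congr' fun z => ?_
      by_cases hz : z = x
      · subst hz; simp
      · simp [hz]
    simp only [this]
    split_ifs <;> simp
  · intro i _ hi
    rw [site_apply, if_neg, mul_zero]
    intro h
    exact hi (by simpa using h x hxy)
  · simp

theorem site_commute {x y : X} (hxy : x ≠ y) (A B : Matrix (Fin (n + 1)) (Fin (n + 1)) ℂ) :
    Commute (siteOpOn x A) (siteOpOn y B) := by
  ext σ τ
  rw [site_mul_site_apply hxy, site_mul_site_apply hxy.symm, mul_comm]
  exact if_congr (forall_congr' fun z => ⟨fun h a b => h b a, fun h a b => h b a⟩) rfl rfl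

theorem site_add (x : X) (A B : Matrix (Fin (n + 1)) (Fin (n + 1)) ℂ) :
    siteOpOn x (A + B) = siteOpOn x A + siteOpOn x B := by
  ext σ τ; simp only [site_apply, Matrix.add_apply]; split_ifs <;> simp

theorem site_sub (x : X) (A B : Matrix (Fin (n + 1)) (Fin (n + 1)) ℂ) :
    siteOpOn x (A - B) = siteOpOn x A - siteOpOn x B := by
  ext σ τ; simp only [site_apply, Matrix.sub_apply]; split_ifs <;> simp

theorem site_smul (x : X) (c : ℂ) (A : Matrix (Fin (n + 1)) (Fin (n + 1)) ℂ) :
    siteOpOn x (c • A) = c • siteOpOn x A := by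
  ext σ τ; simp only [site_apply, Matrix.smul_apply]; split_ifs <;> simp

theorem site_diagonal (x : X) (d : Fin (n + 1) → ℂ) :
    siteOpOn x (diagonal d) = diagonal fun σ : X → Fin (n + 1) => d (σ x) := by
  ext σ τ
  rw [site_apply]
  by_cases h : σ = τ
  · subst h; simp
  · rw [Matrix.diagonal_apply_ne _ h]
    split_ifs with h1
    · refine Matrix.diagonal_apply_ne _ fun h2 => h (funext fun y => ?_)
      by_cases hy : y = x
      · subst hy; exact h2
      · exact h1 y hy
    · rfl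


theorem site_transpose (x : X) (A : Matrix (Fin (n + 1)) (Fin (n + 1)) ℂ) :
    (siteOpOn x A)ᵀ = siteOpOn x Aᵀ := by
  ext σ τ
  simp only [Matrix.transpose_apply, site_apply]
  exact if_congr (forall_congr' fun z => forall_congr' fun _ => eq_comm) rfl rfl

theorem site_conjTranspose (x : X) (A : Matrix (Fin (n + 1)) (Fin (n + 1)) ℂ) :
    (siteOpOn x A)ᴴ = siteOpOn x Aᴴ := by
  ext σ τ
  simp only [Matrix.conjTranspose_apply, site_apply]
  rw [apply_ite star, star_zero]
  exact if_congr (forall_congr' fun z => forall_congr' fun _ => eq_comm) rfl rfl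

theorem Pos.site {A : Matrix (Fin (n + 1)) (Fin (n + 1)) ℂ} (hA : Pos A) (x : X) :
    Pos (siteOpOn x A) := fun σ τ => by
  rw [site_apply]; split_ifs
  · exact hA _ _
  · simp

/-! ### one-site matrices -/

theorem spinPlus_apply (i j : Fin (n + 1)) : spinPlus n i j =
    if (i : ℕ) = (j : ℕ) + 1 then ((Real.sqrt (((n : ℝ) - j) * (j + 1)) : ℝ) : ℂ) else 0 := by
  unfold spinPlus levelM spinVal
  rw [Matrix.of_apply]
  congr 3; ring

theorem pos_spinPlus : Pos (spinPlus n) := fun i j => by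
  rw [spinPlus_apply]; split_ifs <;> simp

theorem spinMinus_eq : spinMinus n = (spinPlus n)ᵀ := pos_spinPlus.conjTranspose_eq

theorem pos_spinMinus : Pos (spinMinus n) := pos_spinPlus.conjTranspose

theorem spinMinus_mul_spinPlus : spinMinus n * spinPlus n =
    diagonal fun j : Fin (n + 1) => ((((n : ℝ) - j) * (j + 1) : ℝ) : ℂ) := by
  ext i j
  rw [spinMinus_eq, Matrix.mul_apply]
  simp only [Matrix.transpose_apply, spinPlus_apply]
  by_cases h : i = j
  · subst h
    rw [Matrix.diagonal_apply_eq]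
    by_cases hi : (i : ℕ) < n
    · rw [Finset.sum_eq_single (⟨i + 1, by omega⟩ : Fin (n + 1))]
      · have h0 : (0 : ℝ) ≤ ((n : ℝ) - i) * (i + 1) := by
          have : ((i : ℕ) : ℝ) ≤ n := by exact_mod_cast hi.le
          exact mul_nonneg (by linarith) (by positivity)
        simp only [if_true]
        rw [← Complex.ofReal_mul, Real.mul_self_sqrt h0]
      · intro k _ hk
        rw [if_neg, zero_mul]
        intro h; exact hk (Fin.ext h)
      · simp
    · have : (i : ℕ) = n := by have := i.2; omega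
      rw [Finset.sum_eq_zero]
      · simp [this]
      · intro k _
        rw [if_neg, zero_mul]
        have := k.2; omega
  · rw [Matrix.diagonal_apply_ne _ h]
    refine Finset.sum_eq_zero fun k _ => ?_
    split_ifs with h1 h2
    · exact absurd (Fin.ext (by omega)) h
    all_goals simp

theorem spinPlus_mul_spinMinus : spinPlus n * spinMinus n =
    diagonal fun j : Fin (n + 1) => ((((n : ℝ) - j + 1) * j : ℝ) : ℂ) := by
  ext i j
  rw [spinMinus_eq, Matrix.mul_apply]
  simp only [Matrix.transpose_apply, spinPlus_apply]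
  by_cases h : i = j
  · subst h
    rw [Matrix.diagonal_apply_eq]
    by_cases hi : 0 < (i : ℕ)
    · rw [Finset.sum_eq_single (⟨i - 1, by omega⟩ : Fin (n + 1))]
      · have e : (((i : ℕ) - 1 : ℕ) : ℝ) = (i : ℕ) - 1 := by
          rw [Nat.cast_sub hi]; simp
        have h0 : (0 : ℝ) ≤ ((n : ℝ) - ((i : ℕ) - 1)) * ((i : ℕ) - 1 + 1) := by
          have : ((i : ℕ) : ℝ) ≤ n := by exact_mod_cast Nat.le_of_lt_succ i.2
          exact mul_nonneg (by linarith) (by simp)
        rw [if_pos (by simp only; omega)]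
        simp only [e]
        rw [← Complex.ofReal_mul, Real.mul_self_sqrt h0]
        congr 1; ring
      · intro k _ hk
        rw [if_neg, zero_mul]
        intro h; exact hk (Fin.ext (by simp only; omega))
      · simp
    · have : (i : ℕ) = 0 := by omega
      rw [Finset.sum_eq_zero]
      · simp [this]
      · intro k _
        rw [if_neg, zero_mul]
        omega
  · rw [Matrix.diagonal_apply_ne _ h]
    refine Finset.sum_eq_zero fun k _ => ?_
    split_ifs with h1 h2
    · exact absurd (Fin.ext (by omega)) h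
    all_goals simp

theorem spinZ_mul_spinPlus : spinZ n * spinPlus n = spinPlus n * spinZ n + spinPlus n := by
  ext i j
  simp only [spinZ, Matrix.add_apply, Matrix.diagonal_mul, Matrix.mul_diagonal, spinPlus_apply]
  split_ifs with h
  · simp only [levelM, h]; push_cast; ring
  · simp

/-! ### spin operators on `X` -/

theorem Sz_eq (x : X) :
    Sz n x = diagonal fun σ : X → Fin (n + 1) => ((levelM n (σ x) : ℝ) : ℂ) :=
  site_diagonal x _

theorem num_eq (x : X) :
    num n x = diagonal fun σ : X → Fin (n + 1) => (((n : ℝ) - (σ x : ℕ) : ℝ) : ℂ) := by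
  unfold num
  rw [Sz_eq]
  ext σ τ
  by_cases h : σ = τ
  · subst h; simp [spinVal, levelM]; ring
  · simp [h]

theorem Sz_eq_num (x : X) : Sz n x = ((spinVal n : ℝ) : ℂ) • (1 : Op X n) - num n x := by
  simp [num]

theorem Sp_conjTranspose (x : X) : (Sp n x)ᴴ = Sm n x := site_conjTranspose x _
theorem Sm_conjTranspose (x : X) : (Sm n x)ᴴ = Sp n x := by
  rw [← Sp_conjTranspose, Matrix.conjTranspose_conjTranspose]
theorem Sp_transpose (x : X) : (Sp n x)ᵀ = Sm n x := by
  unfold Sp Sm; rw [site_transpose, spinMinus_eq]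
theorem Sm_transpose (x : X) : (Sm n x)ᵀ = Sp n x := by
  rw [← Sp_transpose, Matrix.transpose_transpose]
theorem Sz_transpose (x : X) : (Sz n x)ᵀ = Sz n x := by rw [Sz_eq, Matrix.diagonal_transpose]
theorem num_transpose (x : X) : (num n x)ᵀ = num n x := by rw [num_eq, Matrix.diagonal_transpose]
theorem Sz_conjTranspose (x : X) : (Sz n x)ᴴ = Sz n x := by
  rw [Sz_eq, Matrix.diagonal_conjTranspose]; congr 1; funext σ; simp
theorem num_conjTranspose (x : X) : (num n x)ᴴ = num n x := by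
  rw [num_eq, Matrix.diagonal_conjTranspose]; congr 1; funext σ; simp

theorem SpF_conjTranspose (a : X → ℝ) : (SpF n a)ᴴ = SmF n a := by
  simp [SpF, SmF, Matrix.conjTranspose_sum, Sp_conjTranspose]
theorem SpF_transpose (a : X → ℝ) : (SpF n a)ᵀ = SmF n a := by
  simp [SpF, SmF, Matrix.transpose_sum, Sp_transpose]
theorem SmF_transpose (a : X → ℝ) : (SmF n a)ᵀ = SpF n a := by
  rw [← SpF_transpose, Matrix.transpose_transpose]

theorem pos_Sp (x : X) : Pos (Sp n x) := pos_spinPlus.site x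
theorem pos_Sm (x : X) : Pos (Sm n x) := pos_spinMinus.site x
omit [Fintype X] [DecidableEq X] in
theorem lev_le (σ : X → Fin (n + 1)) (x : X) : ((σ x : ℕ) : ℝ) ≤ n := by
  exact_mod_cast Nat.le_of_lt_succ (σ x).2
theorem pos_num (x : X) : Pos (num n x) := by
  rw [num_eq]; exact pos_diagonal fun σ => sub_nonneg.2 (lev_le σ x)
theorem pos_SpF {a : X → ℝ} (ha : ∀ x, 0 ≤ a x) : Pos (SpF n a) :=
  Pos.sum _ fun x _ => (pos_Sp x).smul (ha x)
theorem pos_SmF {a : X → ℝ} (ha : ∀ x, 0 ≤ a x) : Pos (SmF n a) :=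
  Pos.sum _ fun x _ => (pos_Sm x).smul (ha x)

theorem Sp_commute_Sp (x y : X) : Commute (Sp n x) (Sp n y) := by
  by_cases h : x = y
  · subst h; exact Commute.refl _
  · exact site_commute h _ _
theorem Sz_commute_Sz (x y : X) : Commute (Sz n x) (Sz n y) := by
  by_cases h : x = y
  · subst h; exact Commute.refl _
  · exact site_commute h _ _
theorem Sp_commute_Sm {x y : X} (h : x ≠ y) : Commute (Sp n x) (Sm n y) := site_commute h _ _
theorem Sp_commute_Sz {x y : X} (h : x ≠ y) : Commute (Sp n x) (Sz n y) := site_commute h _ _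
theorem Sm_commute_Sz {x y : X} (h : x ≠ y) : Commute (Sm n x) (Sz n y) := site_commute h _ _
theorem Sm_commute_num {x y : X} (h : x ≠ y) : Commute (Sm n x) (num n y) :=
  ((Commute.one_right _).smul_right _).sub_right (Sm_commute_Sz h)

theorem Sm_mul_Sp_eq (x : X) : Sm n x * Sp n x = diagonal fun σ : X → Fin (n + 1) =>
    ((((n : ℝ) - (σ x : ℕ)) * ((σ x : ℕ) + 1) : ℝ) : ℂ) := by
  unfold Sm Sp; rw [site_mul, spinMinus_mul_spinPlus, site_diagonal]
theorem Sp_mul_Sm_eq (x : X) : Sp n x * Sm n x = diagonal fun σ : X → Fin (n + 1) =>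
    ((((n : ℝ) - (σ x : ℕ) + 1) * (σ x : ℕ) : ℝ) : ℂ) := by
  unfold Sm Sp; rw [site_mul, spinPlus_mul_spinMinus, site_diagonal]

/-- `[S⁺, S⁻] = 2 S^z`. -/
theorem Sp_Sm_comm (x : X) : Sp n x * Sm n x - Sm n x * Sp n x = (2 : ℂ) • Sz n x := by
  rw [Sm_mul_Sp_eq, Sp_mul_Sm_eq, Sz_eq, Matrix.diagonal_sub, ← Matrix.diagonal_smul]
  congr 1; funext σ
  simp only [levelM, Pi.smul_apply, smul_eq_mul]; push_cast; ring

theorem Sz_mul_Sp (x : X) : Sz n x * Sp n x = Sp n x * Sz n x + Sp n x := by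
  unfold Sz Sp; rw [site_mul, site_mul, spinZ_mul_spinPlus, site_add]
theorem Sm_mul_Sz (x : X) : Sm n x * Sz n x = Sz n x * Sm n x + Sm n x := by
  have := congrArg Matrix.transpose (Sz_mul_Sp (n := n) x)
  simpa only [Matrix.transpose_mul, Matrix.transpose_add, Sz_transpose, Sp_transpose] using this

theorem num_Sm_comm (x : X) : num n x * Sm n x - Sm n x * num n x = Sm n x := by
  simp only [num, Matrix.sub_mul, Matrix.mul_sub, Matrix.smul_mul, Matrix.mul_smul,
    Matrix.one_mul, Matrix.mul_one, Sm_mul_Sz]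
  abel
theorem Sp_num_comm (x : X) : Sp n x * num n x - num n x * Sp n x = Sp n x := by
  simp only [num, Matrix.sub_mul, Matrix.mul_sub, Matrix.smul_mul, Matrix.mul_smul,
    Matrix.one_mul, Matrix.mul_one, Sz_mul_Sp]
  abel

theorem Sm_mul_Sp (x : X) :
    Sm n x * Sp n x = num n x * ((((n : ℝ) + 1 : ℝ) : ℂ) • (1 : Op X n) - num n x) := by
  rw [Sm_mul_Sp_eq, num_eq, Matrix.smul_one_eq_diagonal, Matrix.diagonal_sub,
    Matrix.diagonal_mul_diagonal]
  congr 1; funext σ; push_cast; ring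

theorem pos_SmSp_sub_num (x : X) : Pos (Sm n x * Sp n x - num n x) := by
  rw [Sm_mul_Sp_eq, num_eq, Matrix.diagonal_sub]
  simp only [← Complex.ofReal_sub]
  refine pos_diagonal fun σ => ?_
  have := mul_nonneg (sub_nonneg.2 (lev_le σ x)) (Nat.cast_nonneg (α := ℝ) (σ x))
  nlinarith

theorem pos_n_sub_num (x : X) : Pos ((((n : ℝ)) : ℂ) • (1 : Op X n) - num n x) := by
  rw [num_eq, Matrix.smul_one_eq_diagonal, Matrix.diagonal_sub]
  simp only [← Complex.ofReal_sub]
  exact pos_diagonal fun σ => by simp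

/-- `S⁻ S⁺ ≤ n · num` entrywise. -/
theorem pos_n_num_sub_SmSp (x : X) : Pos ((((n : ℝ)) : ℂ) • num n x - Sm n x * Sp n x) := by
  rw [Sm_mul_Sp_eq, num_eq, ← Matrix.diagonal_smul, Matrix.diagonal_sub]
  simp only [Pi.smul_apply, smul_eq_mul, ← Complex.ofReal_mul, ← Complex.ofReal_sub]
  refine pos_diagonal fun σ => ?_
  rcases (Nat.le_of_lt_succ (σ x).2).eq_or_lt with h | h
  · rw [h]; simp
  · have h1 : ((σ x : ℕ) : ℝ) + 1 ≤ n := by exact_mod_cast h
    nlinarith [mul_nonneg (sub_nonneg.2 (lev_le σ x)) (sub_nonneg.2 h1)]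

theorem Sm_sq_mul_Sp_sq (x : X) : Sm n x ^ 2 * Sp n x ^ 2 =
    Sm n x * Sp n x * ((num n x - 1) * ((((n : ℝ) + 2 : ℝ) : ℂ) • (1 : Op X n) - num n x)) := by
  have h1 : num n x * Sp n x = Sp n x * (num n x - 1) := by
    rw [Matrix.mul_sub, Matrix.mul_one, sub_eq_iff_eq_add.1 (Sp_num_comm x)]; abel
  have h2 : ((((n : ℝ) + 1 : ℝ) : ℂ) • (1 : Op X n) - num n x) * Sp n x =
      Sp n x * ((((n : ℝ) + 2 : ℝ) : ℂ) • (1 : Op X n) - num n x) := by
    rw [Matrix.sub_mul, h1, Matrix.mul_sub, Matrix.mul_sub, Matrix.smul_mul, Matrix.mul_smul,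
      Matrix.one_mul, Matrix.mul_one]
    have : (((n : ℝ) + 2 : ℝ) : ℂ) = (((n : ℝ) + 1 : ℝ) : ℂ) + 1 := by push_cast; ring
    rw [this, add_smul _ (1 : ℂ), one_smul]; abel
  calc Sm n x ^ 2 * Sp n x ^ 2 = Sm n x * ((Sm n x * Sp n x) * Sp n x) := by
        simp only [pow_two, Matrix.mul_assoc]
    _ = _ := by
        rw [Sm_mul_Sp x, Matrix.mul_assoc (num n x), h2, ← Matrix.mul_assoc (num n x), h1,
          ← Sm_mul_Sp x]
        simp only [Matrix.mul_assoc]

theorem pos_Sm2Sp2_sub (x : X) : Pos (Sm n x ^ 2 * Sp n x ^ 2 - num n x * (num n x - 1)) := by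
  rw [Sm_sq_mul_Sp_sq, Sm_mul_Sp_eq, num_eq, Matrix.smul_one_eq_diagonal, ← Matrix.diagonal_one]
  simp only [Matrix.diagonal_sub, Matrix.diagonal_mul_diagonal, ← Complex.ofReal_one,
    ← Complex.ofReal_mul, ← Complex.ofReal_sub]
  refine pos_diagonal fun σ => ?_
  have h0 : (0 : ℝ) ≤ ((n : ℝ) - (σ x : ℕ)) * ((n : ℝ) - (σ x : ℕ) - 1) := by
    rcases (Nat.le_of_lt_succ (σ x).2).eq_or_lt with h | h
    · rw [h]; simp
    · have h1 : ((σ x : ℕ) : ℝ) + 1 ≤ n := by exact_mod_cast h
      exact mul_nonneg (by linarith) (by linarith)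
  have h1 := Nat.cast_nonneg (α := ℝ) (σ x)
  have h2 := mul_nonneg h0 (by positivity : (0 : ℝ) ≤ ((σ x : ℕ) : ℝ) ^ 2 + 3 * (σ x : ℕ) + 1)
  nlinarith

end Crest.Agent.N337
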