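import Crest.Agent.N337.FV.ModeF
import Crest.Agent.N337.Basic
import Crest.Agent.N337.FV.Boot1
import Crest.Agent.N337.KV.Defs
import Crest.Agent.N337.KV.Fin
import Crest.Agent.N337.Slot.Slot_Mg
import Crest.Agent.N337.Rep.Main
import Crest.Agent.N337.LY.Main
import Crest.Agent.N337.Geo.Shell
import Crest.Agent.N337.Th.Fin
import Crest.Agent.N337.Free.Tor
import Crest.Agent.N337.FV.Sharp_Mg
import Crest.Agent.N337.FV.KVG
import Crest.Agent.N337.LY.Newton

-- ▼ part N337/FV/Mode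
section

/-!
# Row 337, FV-Mode, part 2 (helper95): `mode : ModeStmt`
-/

set_option autoImplicit false

namespace Crest.Agent.N337.FV.Md

open Finset Crest.MathPhysics.SpinModel Free Matrix
open scoped ComplexConjugate

section real
variable {X : Type} [Fintype X] [DecidableEq X] {n : ℕ} (J : X → X → ℝ) (β h : ℝ) {A B : Op X n}

/-- real matrices -/
def Rl (A : Op X n) : Prop := Aᴴ = Aᵀ
theorem Rl.mul (hA : Rl A) (hB : Rl B) : Rl (A * B) := by
  rw [Rl, conjTranspose_mul, transpose_mul, hA, hB]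
theorem rl_Sp (x : X) : Rl (Sp n x) := (Sp_conjTranspose x).trans (Sp_transpose x).symm
theorem rl_Sm (x : X) : Rl (Sm n x) := (Sm_conjTranspose x).trans (Sm_transpose x).symm
theorem rl_Sz (x : X) : Rl (Sz n x) := (Sz_conjTranspose x).trans (Sz_transpose x).symm
theorem rl_num (x : X) : Rl (num n x) := (num_conjTranspose x).trans (num_transpose x).symm

theorem ev_csmul (hA : Rl A) (c : ℂ) : ev n J β h (c • A) = c.re * ev n J β h A := by
  have h1 : ev n J β h (Complex.I • A) = 0 := by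
    have h2 := ev_conjTranspose J β h (Complex.I • A)
    rw [conjTranspose_smul, hA, Complex.star_def, Complex.conj_I, neg_smul, ev_neg,
      ← transpose_smul, ev_transpose] at h2
    linarith
  conv_lhs => rw [← Complex.re_add_im c, add_smul, mul_smul, ev_add, ev_smul, ev_smul, h1]
  ring

theorem duh_csmul (hA : Rl A) (hB : Rl B) (c c' : ℂ) :
    duh n J β h (c • A) (c' • B) = (c * c').re * duh n J β h A B := by
  have h1 : duh n J β h (Complex.I • A) B = 0 := by
    have h2 := duh_conjTranspose J β h (Complex.I • A) B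
    rw [conjTranspose_smul, hA, hB, Complex.star_def, Complex.conj_I, neg_smul, duh_eq,
      gduh_neg_left, ← duh_eq, ← transpose_smul, duh_transpose] at h2
    linarith
  have h3 : duh n J β h (c • A) (c' • B) = duh n J β h ((c * c') • A) B := by
    simp only [duh, Matrix.smul_mul, Matrix.mul_smul, smul_smul, mul_comm c']
  rw [h3]
  conv_lhs => rw [← Complex.re_add_im (c * c'), add_smul, mul_smul, duh_add_left, duh_smul_left,
    duh_smul_left, h1]
  ring

theorem Qf_eq (a : X → ℝ) :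
    Qf n J β h a = ∑ x, ∑ y, a x * a y * ev n J β h (Sm n x * Sp n y) := by
  simp only [Qf, SmF, SpF, Finset.sum_mul, Finset.mul_sum, Matrix.smul_mul, Matrix.mul_smul, ev_sum,
    ev_smul]
  rw [Finset.sum_comm]
  exact Finset.sum_congr rfl fun x _ => Finset.sum_congr rfl fun y _ => by ring

theorem duh_SpF (a : X → ℝ) (B : Op X n) :
    duh n J β h (SpF n a) B = ∑ y, a y * duh n J β h (Sp n y) B := by
  simp only [SpF, duh_sum_left, duh_smul_left]

theorem Df_eq (a : X → ℝ) :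
    Df n J β h a = ∑ x, ∑ y, a x * a y * duh n J β h (Sp n x) (Sm n y) := by
  rw [Df, duh_SpF]
  simp only [SmF, duh_sum_right, duh_smul_right, Finset.mul_sum, mul_assoc]

theorem comm_Sp (φ : X → ℂ) (y : X) : Sp n y * (∑ w, φ w • Sm n w) - (∑ w, φ w • Sm n w) * Sp n y =
    (φ y * 2) • Sz n y := by
  simp only [Finset.sum_mul, Finset.mul_sum, Matrix.smul_mul, Matrix.mul_smul,
    ← Finset.sum_sub_distrib, ← smul_sub]
  rw [Finset.sum_eq_single y, Sp_Sm_comm, smul_smul]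
  · intro w _ hw
    rw [(Sp_commute_Sm hw.symm).eq, sub_self, smul_zero]
  · simp

theorem comm_num (φ : X → ℂ) (x : X) :
    num n x * (∑ w, φ w • Sm n w) - (∑ w, φ w • Sm n w) * num n x = φ x • Sm n x := by
  simp only [Finset.sum_mul, Finset.mul_sum, Matrix.smul_mul, Matrix.mul_smul,
    ← Finset.sum_sub_distrib, ← smul_sub]
  rw [Finset.sum_eq_single x, num_Sm_comm]
  · intro w _ hw
    rw [(Sm_commute_num hw).eq, sub_self, smul_zero]
  · simp

theorem comm_numSp (φ : X → ℂ) (x y : X) :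
    num n x * Sp n y * (∑ w, φ w • Sm n w) - (∑ w, φ w • Sm n w) * (num n x * Sp n y) =
      (φ y * 2) • (num n x * Sz n y) + φ x • (Sm n x * Sp n y) := by
  rw [← Matrix.mul_smul, ← Matrix.smul_mul, ← comm_Sp, ← comm_num]
  noncomm_ring

theorem ev_Sz (x : X) : ev n J β h (Sz n x) = spinVal n - ev n J β h (num n x) := by
  rw [Sz_eq_num, ev_sub, ev_smul, ev_one, mul_one]

variable {J β}
theorem abs_ev_numSz (hJ : Ferro J) (hβ : 0 ≤ β) (x y : X) :
    |ev n J β h (num n x * Sz n y)| ≤ spinVal n * ev n J β h (num n x) := by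
  have h1 := ev_nonneg h hJ hβ ((pos_num (n := n) x).mul (pos_num y))
  have h2 := ev_nonneg h hJ hβ ((pos_num (n := n) x).mul (pos_n_sub_num y))
  rw [Matrix.mul_sub, Matrix.mul_smul, Matrix.mul_one, ev_sub, ev_smul] at h2
  rw [Sz_eq_num, Matrix.mul_sub, Matrix.mul_smul, Matrix.mul_one, ev_sub, ev_smul, abs_le, spinVal]
  constructor <;> linarith

/-- the commutator of a mode with the Hamiltonian -/
theorem mode_eom (hJ : Ferro J) (φ : X → ℂ) (e : ℝ)
    (hφ : ∀ x, ((spinVal n : ℝ) : ℂ) * ∑ y, ((J x y : ℝ) : ℂ) * (φ x - φ y) = (e : ℂ) * φ x) :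
    (∑ x, φ x • Sp n x) * hamF n J h - hamF n J h * ∑ x, φ x • Sp n x =
      ((e + h : ℝ) : ℂ) • ∑ x, φ x • Sp n x +
        ∑ x, ∑ y, (((J x y : ℝ) : ℂ) * (φ x - φ y)) • (num n x * Sp n y) := by
  have h1 : ∑ x, ∑ y, (φ x * ((J x y : ℝ) * (spinVal n : ℝ))) • Sp n y =
      ∑ x, ∑ y, (φ y * ((J x y : ℝ) * (spinVal n : ℝ))) • Sp n x := by
    rw [Finset.sum_comm]
    simp only [hJ.symm]
  have h2 : ∑ x, ∑ y, (φ x * (J x y : ℝ)) • (num n y * Sp n x) =
      ∑ x, ∑ y, (φ y * (J x y : ℝ)) • (num n x * Sp n y) := by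
    rw [Finset.sum_comm]
    simp only [hJ.symm]
  have h3 : ∀ x, ((e : ℂ) * φ x) • Sp n x =
      ∑ y, (φ x * ((J x y : ℝ) * (spinVal n : ℝ))) • Sp n x -
      ∑ y, (φ y * ((J x y : ℝ) * (spinVal n : ℝ))) • Sp n x := fun x => by
    rw [← hφ, Finset.mul_sum, Finset.sum_smul, ← Finset.sum_sub_distrib]
    refine Finset.sum_congr rfl fun y _ => ?_
    rw [← sub_smul]
    congr 1; ring
  have h4 : ∀ x y, (((J x y : ℝ) : ℂ) * (φ x - φ y)) • (num n x * Sp n y) =
      (φ x * (J x y : ℝ)) • (num n x * Sp n y) - (φ y * (J x y : ℝ)) • (num n x * Sp n y) :=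
    fun x y => by
      rw [← sub_smul]
      congr 1; ring
  rw [Finset.sum_mul, Finset.mul_sum, ← Finset.sum_sub_distrib]
  simp only [Matrix.smul_mul, Matrix.mul_smul, ← smul_sub, eom hJ, h4]
  simp only [smul_add, smul_sub, Finset.smul_sum, smul_smul, Finset.sum_add_distrib,
    Finset.sum_sub_distrib, Complex.ofReal_add, add_mul, add_smul, h3, h1, h2,
    mul_comm (φ _) (h : ℂ)]
  abel

end real

variable {d L : ℕ} [NeZero L] {n : ℕ} (J : (Fin d → ℤ) → ℝ) (β h : ℝ)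

theorem ev_shift (w : Tor d L) (A : Op (Tor d L) n) :
    ev n (torJ J L) β h (reix n (Equiv.addRight w) A) = ev n (torJ J L) β h A :=
  ev_reix (e := Equiv.addRight w) (fun x y => torJ_add x y w) β h A
theorem duh_shift (w : Tor d L) (A B : Op (Tor d L) n) :
    duh n (torJ J L) β h (reix n (Equiv.addRight w) A) (reix n (Equiv.addRight w) B) =
      duh n (torJ J L) β h A B :=
  duh_reix (e := Equiv.addRight w) (fun x y => torJ_add x y w) β h A B

theorem ev_num (x : Tor d L) : ev n (torJ J L) β h (num n x) = rho n J L β h := by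
  simpa only [reix_num, Equiv.coe_addRight, zero_add, rho] using ev_shift J β h x (num n 0)

/-- the equal-time kernel -/
noncomputable def cc (n : ℕ) (w : Tor d L) : ℝ := ev n (torJ J L) β h (Sm n w * Sp n 0)
/-- the Duhamel kernel -/
noncomputable def dd (n : ℕ) (w : Tor d L) : ℝ := duh n (torJ J L) β h (Sp n w) (Sm n 0)

theorem ev_SmSp (x y : Tor d L) : ev n (torJ J L) β h (Sm n x * Sp n y) = cc J β h n (x - y) := by
  rw [cc, ← ev_shift J β h y (Sm n (x - y) * Sp n 0), map_mul, reix_Sm, reix_Sp]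
  simp only [Equiv.coe_addRight, zero_add, sub_add_cancel]
theorem duh_SpSm (x y : Tor d L) :
    duh n (torJ J L) β h (Sp n x) (Sm n y) = dd J β h n (x - y) := by
  simpa only [reix_Sm, reix_Sp, Equiv.coe_addRight, zero_add, sub_add_cancel, dd] using
    duh_shift J β h y (Sp n (x - y)) (Sm n 0)
theorem cc_neg (w : Tor d L) : cc J β h n (-w) = cc J β h n w := by
  rw [← zero_sub, ← ev_SmSp, ev_SmSp_symm]; rfl
theorem dd_neg (w : Tor d L) : dd J β h n (-w) = dd J β h n w := by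
  rw [← zero_sub, ← duh_SpSm, duh_Sp_Sm_symm]; rfl

theorem abs_ev_SmSp (x y : Tor d L) : |ev n (torJ J L) β h (Sm n x * Sp n y)| ≤ rS n J L β h := by
  have h1 := ev_cs (torJ J L) β h (Sp n x) (Sp n y)
  have h2 := ev_star_nonneg (torJ J L) β h (Sp n (0 : Tor d L))
  simp only [Sp_conjTranspose] at h1 h2
  rw [ev_SmSp J β h x x, ev_SmSp J β h y y, sub_self, sub_self, ← sq] at h1
  exact abs_le_of_sq_le_sq h1 h2

theorem Bk_conj (k : Tor d L) : (Bk n k)ᴴ =
    (((Real.sqrt ((L : ℝ) ^ d))⁻¹ : ℝ) : ℂ) • ∑ x : Tor d L, conj (chi k x) • Sm n x := by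
  simp only [Bk, conjTranspose_smul, conjTranspose_sum, Sp_conjTranspose, Complex.star_def,
    Complex.conj_ofReal]

theorem ss_mul (t : ℝ) :
    (Real.sqrt ((L : ℝ) ^ d))⁻¹ * ((Real.sqrt ((L : ℝ) ^ d))⁻¹ * ((L : ℝ) ^ d * t)) = t := by
  have h := vol_pos (d := d) (L := L)
  rw [← mul_assoc, ← mul_inv, Real.mul_self_sqrt h.le, inv_mul_cancel_left₀ h.ne']

theorem uk_eq (k : Tor d L) : uk n J β h k = ct (cc J β h n) k := by
  rw [← ss_mul (d := d) (L := L) (ct _ k), ← sum_mode, uk, Bk_conj, Bk, Matrix.smul_mul,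
    Matrix.mul_smul, ev_smul, ev_smul, Finset.sum_mul_sum]
  congr 2
  simp only [ev_sum, Matrix.smul_mul, Matrix.mul_smul, smul_smul]
  refine Finset.sum_congr rfl fun x _ => Finset.sum_congr rfl fun y _ => ?_
  rw [ev_csmul _ _ _ ((rl_Sm x).mul (rl_Sp y)), ev_SmSp]
  simp only [Complex.mul_re, Complex.conj_re, Complex.conj_im]
  ring

theorem m0k_eq (k : Tor d L) : m0k n J β h k = ct (dd J β h n) k := by
  rw [← ss_mul (d := d) (L := L) (ct _ k), ← sum_mode, m0k, Bk_conj, Bk, duh_smul_left,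
    duh_smul_right]
  congr 2
  rw [duh_sum_left]
  simp only [duh_sum_right]
  refine Finset.sum_congr rfl fun x _ => Finset.sum_congr rfl fun y _ => ?_
  rw [duh_csmul _ _ _ (rl_Sp x) (rl_Sm y), duh_SpSm]

theorem uk_nonneg (k : Tor d L) : 0 ≤ uk n J β h k := ev_star_nonneg _ _ _ _

theorem ker_uk (x y : Tor d L) :
    ker (uk n J β h) (x - y) = ev n (torJ J L) β h (Sm n x * Sp n y) := by
  rw [funext (uk_eq J β h), ker_ct (cc_neg J β h), ev_SmSp]
theorem ker_m0k (x y : Tor d L) :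
    ker (m0k n J β h) (x - y) = duh n (torJ J L) β h (Sp n x) (Sm n y) := by
  rw [funext (m0k_eq J β h), ker_ct (dd_neg J β h), duh_SpSm]

theorem vk_sub_uk (k : Tor d L) : vk n J β h k - uk n J β h k = n - 2 * rho n J L β h := by
  rw [← ss_mul (d := d) (L := L) (n - _), vk, uk, ← ev_sub, Bk_conj, Bk, Matrix.smul_mul,
    Matrix.mul_smul, Matrix.smul_mul, Matrix.mul_smul, ← smul_sub, ← smul_sub, ev_smul, ev_smul,
    Finset.sum_mul, Finset.mul_sum _ _ (∑ _, _), ← Finset.sum_sub_distrib, ev_sum]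
  congr 2
  have h1 : ∀ x : Tor d L, ev n (torJ J L) β h
      (chi k x • Sp n x * ∑ w : Tor d L, conj (chi k w) • Sm n w -
        (∑ w : Tor d L, conj (chi k w) • Sm n w) * chi k x • Sp n x) =
      n - 2 * rho n J L β h := fun x => by
    rw [Matrix.smul_mul, Matrix.mul_smul, ← smul_sub, comm_Sp, smul_smul, ← mul_assoc,
      chi_mul_conj, ev_csmul _ _ _ (rl_Sz x), ev_Sz, ev_num, spinVal]
    simp only [one_mul, Complex.re_ofNat]
    ring
  simp only [h1, Finset.sum_const, card_univ, card_Tor, nsmul_eq_mul, Nat.cast_pow]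

theorem ev_Jk_comm (k : Tor d L) :
    (L : ℝ) ^ d * ev n (torJ J L) β h (Jk n J k * (Bk n k)ᴴ - (Bk n k)ᴴ * Jk n J k) =
      ∑ x : Tor d L, ∑ y, torJ J L x y * (1 - (chi k x * conj (chi k y)).re) *
        (ev n (torJ J L) β h (Sm n x * Sp n y) - 2 * ev n (torJ J L) β h (num n x * Sz n y)) := by
  rw [Bk_conj, Jk, Matrix.smul_mul, Matrix.mul_smul, Matrix.smul_mul, Matrix.mul_smul, ← smul_sub,
    ← smul_sub, ev_smul, ev_smul, mul_left_comm, mul_left_comm ((L : ℝ) ^ d), ss_mul,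
    Finset.sum_mul, Finset.mul_sum _ _ (∑ _, _), ← Finset.sum_sub_distrib, ev_sum]
  refine Finset.sum_congr rfl fun x _ => ?_
  rw [Finset.sum_mul, Finset.mul_sum _ _ (∑ _, _), ← Finset.sum_sub_distrib, ev_sum]
  refine Finset.sum_congr rfl fun y _ => ?_
  have h1 := congrArg Complex.re (chi_mul_conj k x)
  have h2 := congrArg Complex.re (chi_mul_conj k y)
  rw [Matrix.smul_mul, Matrix.mul_smul, ← smul_sub, comm_numSp, smul_add, smul_smul, smul_smul,
    ev_add, ev_csmul _ _ _ ((rl_num x).mul (rl_Sz y)), ev_csmul _ _ _ ((rl_Sm x).mul (rl_Sp y))]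
  simp only [Complex.mul_re, Complex.mul_im, Complex.conj_re, Complex.conj_im, Complex.sub_re,
    Complex.sub_im, Complex.ofReal_re, Complex.ofReal_im, Complex.re_ofNat, Complex.im_ofNat,
    Complex.one_re] at h1 h2 ⊢
  linear_combination torJ J L x y * ev n (torJ J L) β h (Sm n x * Sp n y) * h1 -
    2 * torJ J L x y * ev n (torJ J L) β h (num n x * Sz n y) * h2

variable {J β}
theorem rho_le (hF : Ferro (torJ J L)) (hβ : 0 ≤ β) : rho n J L β h ≤ rS n J L β h :=
  ev_mono h hF hβ (pos_SmSp_sub_num 0)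

theorem abs_Jk_comm (hJ : Coup J) (hn : 1 ≤ n) (hF : Ferro (torJ J L)) (hβ : 0 ≤ β) (k : Tor d L) :
    |ev n (torJ J L) β h (Jk n J k * (Bk n k)ᴴ - (Bk n k)ᴴ * Jk n J k)| ≤
      4 * rS n J L β h * epsT n J k := by
  have hV := vol_pos (d := d) (L := L)
  have h1 := rho_le (n := n) h hF hβ
  have h2 : 0 ≤ rho n J L β h := ev_nonneg h hF hβ (pos_num 0)
  have h3 : (1 : ℝ) ≤ n := by exact_mod_cast hn
  refine le_of_mul_le_mul_left ?_ hV
  rw [← abs_of_pos hV, ← abs_mul, ev_Jk_comm, abs_of_pos hV]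
  refine (Finset.abs_sum_le_sum_abs _ _).trans ((Finset.sum_le_card_nsmul _ _
    (4 * rS n J L β h * epsT n J k) fun x _ => ?_).trans (by simp [card_Tor]))
  rw [← sum_J_cos hJ n k x, ← mul_assoc, Finset.mul_sum]
  refine (Finset.abs_sum_le_sum_abs _ _).trans (Finset.sum_le_sum fun y _ => ?_)
  have h4 : 0 ≤ torJ J L x y * (1 - (chi k x * conj (chi k y)).re) :=
    mul_nonneg (hF.nonneg x y) (sub_nonneg.2 (by
      rw [← chi_sub]; exact (le_abs_self _).trans (abs_re_chi_le _ _)))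
  rw [abs_mul, abs_of_nonneg h4, mul_comm]
  refine mul_le_mul_of_nonneg_right ?_ h4
  have h5 := abs_le.1 (abs_ev_SmSp (n := n) J β h x y)
  have h6 := abs_le.1 (abs_ev_numSz (n := n) h hF hβ x y)
  rw [ev_num, spinVal] at h6
  rw [abs_le, spinVal]
  constructor <;> nlinarith

theorem Ck_eq (hJ : Coup J) (hF : Ferro (torJ J L)) (k : Tor d L) :
    Ck n J h k = ((epsT n J k + h : ℝ) : ℂ) • Bk n k + Jk n J k := by
  rw [Ck, Bk, Jk, Matrix.smul_mul, Matrix.mul_smul, ← smul_sub,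
    mode_eom h hF _ _ (lap_chi hJ n k), smul_add, smul_comm]

end Crest.Agent.N337.FV.Md

namespace Crest.Agent.N337.FV
open Md Free Matrix

theorem mode : ModeStmt := by
  intro d n J _ hn hJ
  obtain ⟨L0, hL0⟩ := exists_ferro hJ
  refine ⟨L0, fun L _ hL β h hβ => ⟨ev_num J β h, fun x y w => ?_, fun x y z t w => ?_,
    ⟨ev_nonneg h (hL0 L hL) hβ.le (pos_num 0), rho_le h (hL0 L hL) hβ.le, ?_⟩,
    fun k => ⟨Ck_eq h hJ (hL0 L hL) k, vk_sub_uk J β h k, ?_⟩, fun a => ?_⟩⟩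
  · rw [ev_SmSp, ev_SmSp, add_sub_add_right_eq_sub]
  · rw [← ev_shift J β h w (Sm n x * num n y * (num n z * Sp n t)), map_mul, map_mul, map_mul,
      reix_Sm, reix_Sp, reix_num, reix_num]
    rfl
  · exact (ev_mono h (hL0 L hL) hβ.le (pos_n_num_sub_SmSp 0)).trans_eq (ev_smul _ _ _ _ _)
  · convert abs_Jk_comm h hJ hn (hL0 L hL) hβ.le k using 2
    rw [m2k, Ck_eq h hJ (hL0 L hL), vk, uk, ← ev_sub, ← ev_smul, ← ev_sub]
    congr 1
    simp only [Matrix.add_mul, Matrix.mul_add, Matrix.smul_mul, Matrix.mul_smul, smul_sub]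
    abel
  have hQ : Qf n (torJ J L) β h a = (∑ k, hat2 a k * uk n J β h k) / (L : ℝ) ^ d := by
    simp only [Qf_eq, ← ker_uk, form_ker_zero]
  have hD : Df n (torJ J L) β h a = (∑ k, hat2 a k * m0k n J β h k) / (L : ℝ) ^ d := by
    simp only [Df_eq, ← ker_m0k, form_ker_zero]
  refine ⟨sum_hat2 a, hQ, hD, fun w => ?_, fun f hf => ⟨hat2_conv hf a, ?_, fun h0 M w hM => ?_⟩⟩
  · rw [hD]
    refine le_trans (le_of_eq ?_) (form_ker_le (f := m0k n J β h)
      (fun k => duh_star_nonneg _ h hβ.le _) (fun _ => le_rfl) a (-w))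
    simp only [duh_SpF, ← ker_m0k, Finset.mul_sum]
    rw [Finset.sum_comm]
    refine Finset.sum_congr rfl fun x _ => Finset.sum_congr rfl fun y _ => ?_
    rw [← sub_sub, sub_eq_add_neg _ w]; ring
  · simp only [mul_comm (f _), ← form_ker_zero]
    exact Finset.sum_congr rfl fun x _ => Finset.sum_congr rfl fun y _ => by ring
  · refine le_trans (le_of_eq ?_) ((form_ker_le (f := fun k => f k * uk n J β h k)
      (g := fun k => M * uk n J β h k) (fun k => mul_nonneg (h0 k) (uk_nonneg J β h k))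
      (fun k => mul_le_mul_of_nonneg_right (hM k) (uk_nonneg J β h k)) a w).trans_eq ?_)
    · refine Finset.sum_congr rfl fun x _ => Finset.sum_congr rfl fun y _ => ?_
      rw [← ker_conv hf, Finset.mul_sum]
      refine Finset.sum_congr rfl fun s _ => ?_
      rw [← ker_uk, mul_assoc (a x * a y), show x + s + w - y = x - y + w + s by abel]
    · rw [hQ, mul_div_assoc', Finset.mul_sum]
      simp only [mul_left_comm M]

end Crest.Agent.N337.FV
end

-- ▼ part N337/FV/Boot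
section

/-!
# Row 337, part FV: the bootstrap in the field (helper35)

`t = β^{-1/80}`, `A = t⁻²`, `μ = A/β = t^78`.
-/

set_option autoImplicit false

namespace Crest.Agent.N337.FV

open Crest.MathPhysics.SpinModel Filter Topology Finset Crest.Agent.N337.Free

namespace Bt

theorem pow_small {t c : ℝ} (ht : 0 < t) (ht1 : t ≤ 1) (hc0 : 0 ≤ c) (hc : c * t ≤ 1) {k : ℕ}
    (hk : k ≠ 0) : c * t ^ k ≤ 1 :=
  (mul_le_mul_of_nonneg_left (pow_le_of_le_one ht.le ht1 hk) hc0).trans hc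

theorem exp_small {t C : ℝ} (ht : 0 < t) (hC : 0 ≤ C)
    (h : 2 * C * ((Nat.factorial 58 : ℝ) * 2 ^ 58) * t ≤ 1) :
    2 * (C * Real.exp (-((t ^ 2)⁻¹ / 2))) ≤ t ^ 115 := by
  have h1 := Real.pow_div_factorial_le_exp ((t ^ 2)⁻¹ / 2) (by positivity) 58
  generalize hF : (Nat.factorial 58 : ℝ) = F at h h1
  have hF0 : 0 < F := by rw [← hF]; exact Nat.cast_pos.2 (Nat.factorial_pos _)
  have h2 : Real.exp (-((t ^ 2)⁻¹ / 2)) ≤ F * 2 ^ 58 * t * t ^ 115 := by
    rw [Real.exp_neg]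
    refine (inv_anti₀ (by positivity) h1).trans (le_of_eq ?_)
    field_simp
  calc 2 * (C * Real.exp (-((t ^ 2)⁻¹ / 2))) ≤ 2 * (C * (F * 2 ^ 58 * t * t ^ 115)) := by gcongr
    _ = 2 * C * (F * 2 ^ 58) * t * t ^ 115 := by ring
    _ ≤ 1 * t ^ 115 := by gcongr
    _ = _ := one_mul _

theorem arith {Q N X Y r e t nn CH CF K K' K0 : ℝ} (ht : 0 < t) (ht1 : t ≤ 1) (hN : 0 ≤ N)
    (hnn : 0 ≤ nn) (hCH : 0 ≤ CH) (hCF : 0 ≤ CF) (hK' : 0 ≤ K') (hK : K' ≤ K) (hr0 : 0 ≤ r)
    (hr : r ≤ K0 * t ^ 115) (he : 2 * (CH * e) ≤ t ^ 115)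
    (hs : 2 * CH * K0 ^ 2 * (CF * (2 + K)) * t ≤ 1)
    (hX : X ≤ N * (CF * t ^ 39 + CF * K' + CF * t ^ 39)) (hY : Y ≤ N * (CF + CF * K' + CF))
    (hQ : Q ≤ 2 * (216 * nn * t ^ 76 * X + CH * r ^ 2 * Y + CH * e * N)) :
    Q ≤ N * (432 * nn * CF * t ^ 76 * (2 * t ^ 39 + K') + 2 * t ^ 115) := by
  have h1 : 216 * nn * t ^ 76 * X ≤
      216 * nn * t ^ 76 * (N * (CF * t ^ 39 + CF * K' + CF * t ^ 39)) := by gcongr
  have h2 : CH * r ^ 2 * Y ≤ CH * (K0 * t ^ 115) ^ 2 * (N * (CF * (2 + K))) :=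
    calc _ ≤ CH * r ^ 2 * (N * (CF + CF * K' + CF)) := by gcongr
      _ = CH * r ^ 2 * (N * (CF * (2 + K'))) := by ring
      _ ≤ _ := by gcongr
  have h3 := pow_small ht ht1 (by have : 0 ≤ K := hK'.trans hK; positivity) hs
    (show 115 ≠ 0 by norm_num)
  have h4 := mul_le_mul_of_nonneg_right h3 (show 0 ≤ N * t ^ 115 by positivity)
  have h5 := mul_le_mul_of_nonneg_right he hN
  nlinarith

end Bt

set_option maxHeartbeats 800000 in
open Bt in
theorem boot (hM : ModeStmt) (hH : HighStmt) (hK : KVGStmt) : BootStmt := by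
  intro d n J hd hn hJ
  have hn1 : (1 : ℝ) ≤ n := by exact_mod_cast hn
  have hn0 : (0 : ℝ) ≤ n := Nat.cast_nonneg _
  obtain ⟨L1, hM⟩ := hM d n J hd hn hJ
  obtain ⟨CH, L2, hCH, hH⟩ := hH d n J hd hn hJ
  obtain ⟨K, CK, η, L3, hK1, hCK, hη, hK⟩ := hK d n J hd hn hJ
  obtain ⟨CF, L4, hCF, hF⟩ := free d n J hd hn hJ
  have hCH0 : 0 ≤ CH := zero_le_one.trans hCH
  have hCK0 : 0 ≤ CK := zero_le_one.trans hCK
  have hCF0 : 0 ≤ CF := zero_le_one.trans hCF
  have hKp : 0 ≤ K := zero_le_one.trans hK1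
  have hc0 : 0 ≤ 432 * n * CF := mul_nonneg (mul_nonneg (by norm_num) hn0) hCF0
  obtain ⟨K0, hK0⟩ : ∃ K0 : ℝ, K0 = 432 * n * CF * (2 + K) + 3 := ⟨_, rfl⟩
  have hK03 : 3 ≤ K0 := by
    rw [hK0]; exact le_add_of_nonneg_left (mul_nonneg hc0 (by linarith only [hKp]))
  have hK0p : 0 < K0 := by linarith only [hK03]
  have hsm : ∀ c : ℝ, ∀ᶠ β : ℝ in atTop, c * β ^ (-(1 / 80 : ℝ)) ≤ 1 := fun c => by
    have := (tendsto_rpow_neg_atTop (y := 1 / 80) (by norm_num)).const_mul c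
    rw [mul_zero] at this
    exact this.eventually (eventually_le_nhds one_pos)
  obtain ⟨β1, hβ1⟩ := eventually_atTop.1 ((hsm 1).and ((hsm (K0 / η)).and ((hsm (8 * K0)).and
    ((hsm (CK * (K0 + K0 ^ 2))).and ((hsm (2 * CH * K0 ^ 2)).and
    ((hsm (2 * CH * K0 ^ 2 * (CF * (2 + K)))).and
    (hsm (2 * CH * ((Nat.factorial 58 : ℝ) * 2 ^ 58)))))))))
  have hK1' : K0 ≤ CK * (K0 + K0 ^ 2) := by
    nlinarith only [hK0p, hCK, sq_nonneg K0, mul_nonneg hCK0 (sq_nonneg K0)]
  refine ⟨CK * (K0 + K0 ^ 2), max β1 2, by linarith only [hK1', hK03],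
    lt_max_of_lt_right one_lt_two, fun β hβ h hh => ?_⟩
  have hβ0 : 0 < β := by linarith only [hβ, le_max_right β1 2]
  obtain ⟨s1, s2, s3, s4, s5, s6, s7⟩ := hβ1 β ((le_max_left _ _).trans hβ)
  clear hβ1 hsm
  have e115 : β ^ (-(23 / 16 : ℝ)) = (β ^ (-(1 / 80 : ℝ))) ^ 115 := by
    rw [← Real.rpow_natCast, ← Real.rpow_mul hβ0.le]; norm_num
  have e80 : β = ((β ^ (-(1 / 80 : ℝ))) ^ 80)⁻¹ := by
    rw [← Real.rpow_natCast, ← Real.rpow_mul hβ0.le, ← Real.rpow_neg hβ0.le]; norm_num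
  rw [e115]
  have ht : 0 < β ^ (-(1 / 80 : ℝ)) := Real.rpow_pos_of_pos hβ0 _
  clear e115
  generalize β ^ (-(1 / 80 : ℝ)) = t at *
  rw [one_mul] at s1
  have p39 : 0 < t ^ 39 := pow_pos ht _
  have p76 : 0 < t ^ 76 := pow_pos ht _
  have p78 : 0 < t ^ 78 := pow_pos ht _
  have p115 : 0 < t ^ 115 := pow_pos ht _
  have hA : 1 ≤ (t ^ 2)⁻¹ := (one_le_inv₀ (pow_pos ht _)).2 (pow_le_one₀ ht.le s1)
  have eμ : (t ^ 2)⁻¹ / β = t ^ 78 := by rw [e80]; field_simp
  have eA : ((t ^ 2)⁻¹) ^ 2 / β = t ^ 76 := by rw [e80]; field_simp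
  have esq : Real.sqrt (t ^ 78) = t ^ 39 := by
    rw [show t ^ 78 = (t ^ 39) ^ 2 by ring, Real.sqrt_sq p39.le]
  clear e80
  have t1 : t ^ 115 ≤ t ^ 76 := pow_le_pow_of_le_one ht.le s1 (by norm_num)
  have t2 : t ^ 39 ≤ 1 := pow_le_one₀ ht.le s1
  have t3 : t ^ 152 ≤ t ^ 115 := pow_le_pow_of_le_one ht.le s1 (by norm_num)
  have a1 : K0 * t ^ 76 ≤ η := by
    have := pow_small ht s1 (div_pos hK0p hη).le s2 (show 76 ≠ 0 by norm_num)
    rwa [div_mul_eq_mul_div, div_le_one hη] at this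
  have a01 : K0 * t ^ 115 ≤ K0 * t ^ 76 := mul_le_mul_of_nonneg_left t1 hK0p.le
  have a2 : K0 * t ^ 115 ≤ 1 / 8 := by
    linarith only [pow_small ht s1 (by linarith only [hK0p]) s3 (show 115 ≠ 0 by norm_num)]
  have a3 : CK * (K0 * t ^ 115 + (K0 * t ^ 76) ^ 2) ≤ CK * (K0 + K0 ^ 2) * t ^ 115 := by
    linarith only [mul_le_mul_of_nonneg_left t3 (mul_nonneg hCK0 (sq_nonneg K0))]
  have a4 := pow_small ht s1 (hK0p.le.trans hK1') s4 (show 115 ≠ 0 by norm_num)
  have a5 := pow_small ht s1 (mul_nonneg (mul_nonneg zero_le_two hCH0) (sq_nonneg K0)) s5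
    (show 152 ≠ 0 by norm_num)
  have a6 := exp_small ht hCH0 s7
  clear s2 s3 s4 s5 s7
  have hδ : 0 < min (t ^ 39 * h) (t ^ 78) := lt_min (mul_pos p39 hh) p78
  refine ⟨max (max L1 L2) (max (max L3 L4) ⌈(min (t ^ 39 * h) (t ^ 78))⁻¹⌉₊), fun L _ hL => ?_⟩
  simp only [max_le_iff] at hL
  obtain ⟨⟨hL1, hL2⟩, ⟨hL3, hL4⟩, hL5⟩ := hL
  have hV : (0 : ℝ) < (L : ℝ) ^ d := vol_pos
  have hL1' : (1 : ℝ) ≤ L := by exact_mod_cast NeZero.one_le
  have hL0 : (0 : ℝ) ≤ L := Nat.cast_nonneg _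
  have hLV : (L : ℝ) ≤ min (t ^ 39 * h) (t ^ 78) * (L : ℝ) ^ d := by
    have h1 : (min (t ^ 39 * h) (t ^ 78))⁻¹ ≤ L := Nat.ceil_le.1 hL5
    rw [inv_le_iff_one_le_mul₀ hδ] at h1
    have h2 : (L : ℝ) ^ 2 ≤ (L : ℝ) ^ d := pow_le_pow_right₀ hL1' (by omega)
    linarith only [mul_le_mul_of_nonneg_left h2 hδ.le, mul_le_mul_of_nonneg_left h1 hL0]
  obtain ⟨-, hε, -, hF⟩ := hF L hL4
  obtain ⟨hG0, hG1, hG2⟩ := hF (t ^ 78) p78
  have hgf : ∀ (x : ℝ) (a : Tor d L → ℝ), 0 < x → 0 ≤ gform n J x a := fun x a hx =>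
    div_nonneg (Finset.sum_nonneg fun k _ =>
      div_nonneg (hat2_nonneg a k) (add_nonneg (hε k) hx.le)) hV.le
  -- the infrared bound under the bootstrap hypothesis
  have hIR : ∀ x, h ≤ x → rS n J L β x ≤ K0 * t ^ 115 →
      (∀ B : Finset (Tor d L), Sparse K B → B.card ≤ L →
        Qf n (torJ J L) β x (ind B) ≤ K0 * t ^ 76 * B.card) →
      ∀ a : Tor d L → ℝ, (∀ y, 0 ≤ a y) →
        Df n (torJ J L) β x a ≤ (1 + CK * (K0 + K0 ^ 2) * t ^ 115) * n * gform n J x a := by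
    intro x hx h1 h2 a ha
    exact (hK L hL3 β x _ _ hβ0 (hh.trans_le hx) (mul_pos hK0p p115).le (a01.trans a1)
      (mul_pos hK0p p76).le a1 h1 h2 a ha).trans (mul_le_mul_of_nonneg_right
        (mul_le_mul_of_nonneg_right (by linarith only [a3]) hn0) (hgf x a (hh.trans_le hx)))
  -- the improved bounds
  have himp : ∀ x, h ≤ x → rS n J L β x ≤ K0 * t ^ 115 →
      (∀ B : Finset (Tor d L), Sparse K B → B.card ≤ L →
        Qf n (torJ J L) β x (ind B) ≤ K0 * t ^ 76 * B.card) →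
      ∀ (K' : ℝ) (B : Finset (Tor d L)), 0 ≤ K' → K' ≤ K → Sparse K' B → B.card ≤ L →
        Qf n (torJ J L) β x (ind B) ≤
          B.card * (432 * n * CF * t ^ 76 * (2 * t ^ 39 + K') + 2 * t ^ 115) := by
    intro x hx h1 h2 K' B hK'0 hK' hB hc
    have hx0 : 0 < x := hh.trans_le hx
    obtain ⟨-, -, -, ⟨r1, r2, -⟩, m1, m2⟩ := hM L hL1 β x hβ0
    have hc' : (B.card : ℝ) ≤ L := by exact_mod_cast hc
    have hQ := Q_le (C := CH) hJ hβ0 hx0 hA
      (fun k hk => uk_low hβ0 hA hx0 k (hε k) hk (h1.trans a2)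
        (by rw [(m1 k).2.1]; linarith only [hn1, r2, h1, a2]) (m1 k).2.2)
      (fun a => (m2 a).2.1) (fun a => (m2 a).2.2.1)
      (fun a f hf => ⟨((m2 a).2.2.2.2 f hf).1, ((m2 a).2.2.2.2 f hf).2.1⟩)
      (by rw [eμ]; exact hG0)
      (fun a ha => (hIR x hx h1 h2 a ha).trans (mul_le_mul_of_nonneg_right
        (mul_le_mul_of_nonneg_right (by linarith only [a4]) hn0) (hgf x a hx0)))
      (by
        rw [eμ, div_le_iff₀ p78]
        have h3 : rS n J L β x ^ 2 ≤ (K0 * t ^ 115) ^ 2 := pow_le_pow_left₀ (r1.trans r2) h1 2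
        linarith only [mul_le_mul_of_nonneg_left h3 hCH0, mul_le_mul_of_nonneg_right a5 p78.le])
      (ind B) (ind_nonneg B) (hH L hL2 β x _ hβ0 hx0 hA _ (ind_nonneg B))
    rw [eμ, eA, sum_ind_sq] at hQ
    refine arith ht s1 (Nat.cast_nonneg _) hn0 hCH0 hCF0 hK'0 hK'
      (r1.trans r2) h1 a6 s6 ?_ ?_ hQ
    · refine pair_le (ker_neg _) hCF0 (c := CF / (x * (L : ℝ) ^ d))
        ((hG2 x hx0 0).trans (by rw [esq]; exact add_le_add (min_le_left _ _) le_rfl))
        (fun y => (hG2 x hx0 y).trans (add_le_add (min_le_right _ _) le_rfl)) hB ?_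
      rw [mul_div_assoc', div_le_iff₀ (mul_pos hx0 hV)]
      have h3 : (B.card : ℝ) ≤ t ^ 39 * x * (L : ℝ) ^ d :=
        hc'.trans (hLV.trans (mul_le_mul_of_nonneg_right ((min_le_left _ _).trans
          (mul_le_mul_of_nonneg_left hx p39.le)) hV.le))
      linarith only [mul_le_mul_of_nonneg_left h3 hCF0]
    · refine pair_le (ker_neg _) hCF0 (c := CF / (t ^ 78 * (L : ℝ) ^ d))
        ((hG1 0).trans (by rw [tdist_self, Nat.cast_zero, max_eq_left zero_le_one, div_one]))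
        hG1 hB ?_
      rw [mul_div_assoc', div_le_iff₀ (mul_pos p78 hV)]
      have h3 : (B.card : ℝ) ≤ t ^ 78 * (L : ℝ) ^ d :=
        hc'.trans (hLV.trans (mul_le_mul_of_nonneg_right (min_le_right _ _) hV.le))
      linarith only [mul_le_mul_of_nonneg_left h3 hCF0]
  -- large field
  obtain ⟨H, hH1, hH2⟩ : ∃ H, h ≤ H ∧ L * rS n J L β H ≤ K0 * t ^ 115 := by
    obtain ⟨C, hC, hC'⟩ := ev_num_le_exp (n := n) (torJ J L) hβ0.le
    have h1 : Tendsto (fun H : ℝ => L * (n * (C * Real.exp (-(β * H))))) atTop (𝓝 0) := by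
      have := (((Real.tendsto_exp_neg_atTop_nhds_zero.comp
        (tendsto_id.const_mul_atTop hβ0)).const_mul C).const_mul (n : ℝ)).const_mul (L : ℝ)
      simpa using this
    obtain ⟨H, h2, h3⟩ := ((eventually_ge_atTop h).and
      (h1.eventually (eventually_le_nhds (mul_pos hK0p p115)))).exists
    refine ⟨H, h2, le_trans ?_ h3⟩
    obtain ⟨-, -, -, ⟨-, -, r3⟩, -⟩ := hM L hL1 β H hβ0
    exact mul_le_mul_of_nonneg_left (r3.trans (mul_le_mul_of_nonneg_left
      (hC' H (hh.le.trans h2) 0) hn0)) hL0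
  have toP : ∀ x, (∀ B : {B : Finset (Tor d L) // Sparse K B ∧ B.card ≤ L ∧ B.Nonempty},
      Qf n (torJ J L) β x (ind B.1) ≤ K0 * t ^ 76 * B.1.card) →
      ∀ B : Finset (Tor d L), Sparse K B → B.card ≤ L →
        Qf n (torJ J L) β x (ind B) ≤ K0 * t ^ 76 * B.card := by
    intro x hx B h1 h2
    rcases B.eq_empty_or_nonempty with rfl | h3
    · simp [Qf, SpF, ind, ev_zero]
    · exact hx ⟨B, h1, h2, h3⟩
  have key := boot_abs
    (ι := Option {B : Finset (Tor d L) // Sparse K B ∧ B.card ≤ L ∧ B.Nonempty})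
    (fun i x => i.elim (rS n J L β x) fun B => Qf n (torJ J L) β x (ind B.1))
    (fun i => i.elim (K0 * t ^ 115) fun B => K0 * t ^ 76 * B.1.card)
    (by rintro (_ | B) <;> exact continuous_ev _ _ _) hH1 ?_ ?_
  · have h1 : rS n J L β h ≤ K0 * t ^ 115 := key none
    exact ⟨h1.trans (mul_le_mul_of_nonneg_right hK1' p115.le),
      hIR h le_rfl h1 (toP h fun B => key (some B))⟩
  · obtain ⟨-, -, -, ⟨r1, r2, -⟩, -, m2⟩ := hM L hL1 β H hβ0
    have r0 := r1.trans r2
    rintro (_ | ⟨B, hB, hc, hne⟩)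
    · exact le_trans (le_mul_of_one_le_left r0 hL1') hH2
    · have hc' : (B.card : ℝ) ≤ L := by exact_mod_cast hc
      have h1 : Qf n (torJ J L) β H (ind B) ≤ (B.card : ℝ) ^ 2 * rS n J L β H := by
        rw [← Qf_ind_zero, (m2 _).2.1, (m2 _).2.1, mul_div_assoc', Finset.mul_sum]
        refine div_le_div_of_nonneg_right (Finset.sum_le_sum fun k _ => ?_) hV.le
        rw [hat2_ind_zero, one_mul]
        exact mul_le_mul_of_nonneg_right (hat2_ind_le B k) (uk_nonneg _ _ _)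
      show Qf n (torJ J L) β H (ind B) ≤ K0 * t ^ 76 * B.card
      exact h1.trans (le_trans (le_of_eq (by ring)) (mul_le_mul_of_nonneg_right
        ((mul_le_mul_of_nonneg_right hc' r0).trans (hH2.trans a01)) (Nat.cast_nonneg _)))
  · intro x hx hP
    have h1 := himp x hx (hP none) (toP x fun B => hP (some B))
    rintro (_ | ⟨B, hB, hc, hne⟩)
    · have h2 := h1 0 {0} le_rfl hKp (by simp [Sparse]) (by simpa using NeZero.one_le)
      rw [Qf_ind_zero, Finset.card_singleton, Nat.cast_one] at h2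
      show rS n J L β x < K0 * t ^ 115
      rw [hK0]
      linarith only [h2, p115, mul_nonneg (mul_nonneg hc0 hKp) p115.le]
    · have h2 := h1 K B hKp le_rfl hB hc
      show Qf n (torJ J L) β x (ind B) < K0 * t ^ 76 * B.card
      have h3 : (0 : ℝ) < B.card := Nat.cast_pos.2 hne.card_pos
      refine h2.trans_lt ?_
      rw [mul_comm]
      refine mul_lt_mul_of_pos_right ?_ h3
      rw [hK0]
      linarith only [p76, t1, mul_le_mul_of_nonneg_left t2 (mul_nonneg hc0 p76.le)]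

end Crest.Agent.N337.FV
end

-- ▼ part N337/KV/Cor
section

/-! # Row 337, KV-Cor: consequences of the Gaussian domination `LYStmt` for exact words -/

set_option autoImplicit false

namespace Crest.Agent.N337.KV

open Crest.Agent.N337.Slot

variable {Λ : Type} [Fintype Λ] [DecidableEq Λ]

/-- entrywise non-negative -/
def NN (A : BOp Λ) : Prop := ∀ i j, 0 ≤ A i j
/-- entrywise comparison -/
def LeE (A B : BOp Λ) : Prop := ∀ i j, A i j ≤ B i j

theorem NN.mul {A B : BOp Λ} (hA : NN A) (hB : NN B) : NN (A * B) := fun i j => by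
  rw [Matrix.mul_apply]; exact Finset.sum_nonneg fun k _ => mul_nonneg (hA i k) (hB k j)
theorem NN.trace {A : BOp Λ} (hA : NN A) : 0 ≤ A.trace := Finset.sum_nonneg fun i _ => hA i i
omit [Fintype Λ] [DecidableEq Λ] in
theorem NN.smul {A : BOp Λ} (hA : NN A) {c : ℝ} (hc : 0 ≤ c) : NN (c • A) :=
  fun i j => mul_nonneg hc (hA i j)
omit [Fintype Λ] [DecidableEq Λ] in
theorem NN.add {A B : BOp Λ} (hA : NN A) (hB : NN B) : NN (A + B) :=
  fun i j => add_nonneg (hA i j) (hB i j)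
theorem nn_one : NN (1 : BOp Λ) := fun i j => by
  rw [Matrix.one_apply]; split_ifs <;> norm_num
omit [Fintype Λ] [DecidableEq Λ] in
theorem LeE.rfl {A : BOp Λ} : LeE A A := fun _ _ => le_rfl
theorem LeE.mul_right {A A' B : BOp Λ} (h : LeE A A') (hB : NN B) : LeE (A * B) (A' * B) :=
  fun i j => by
    rw [Matrix.mul_apply, Matrix.mul_apply]
    exact Finset.sum_le_sum fun k _ => mul_le_mul_of_nonneg_right (h i k) (hB k j)
theorem LeE.mul_left {A B B' : BOp Λ} (h : LeE B B') (hA : NN A) : LeE (A * B) (A * B') :=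
  fun i j => by
    rw [Matrix.mul_apply, Matrix.mul_apply]
    exact Finset.sum_le_sum fun k _ => mul_le_mul_of_nonneg_left (h k j) (hA i k)
omit [Fintype Λ] [DecidableEq Λ] in
theorem LeE.trans {A B C : BOp Λ} (h : LeE A B) (h' : LeE B C) : LeE A C :=
  fun i j => (h i j).trans (h' i j)
theorem LeE.trace {A B : BOp Λ} (h : LeE A B) : A.trace ≤ B.trace :=
  Finset.sum_le_sum fun i _ => h i i

omit [DecidableEq Λ] in
theorem nn_tens {A : Λ → Bool → Bool → ℝ} (h : ∀ x i j, 0 ≤ A x i j) : NN (tens A) :=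
  fun _ _ => Finset.prod_nonneg fun x _ => h x _ _
omit [DecidableEq Λ] in
theorem tens_le {A B : Λ → Bool → Bool → ℝ} (h0 : ∀ x i j, 0 ≤ A x i j)
    (h : ∀ x i j, A x i j ≤ B x i j) : LeE (tens A) (tens B) :=
  fun _ _ => Finset.prod_le_prod (fun x _ => h0 x _ _) fun x _ => h x _ _
theorem tens_mul_tens (A B : Λ → Bool → Bool → ℝ) :
    tens A * tens B = tens fun x i j => A x i true * B x true j + A x i false * B x false j := by
  ext σ τ
  simp only [tens, Matrix.mul_apply, Matrix.of_apply, ← Finset.prod_mul_distrib]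
  rw [← Fintype.piFinset_univ, ← Finset.prod_univ_sum (fun _ => Finset.univ)
    fun x k => A x (σ x) k * B x k (τ x)]
  simp

theorem adm_nonneg {W : BOp Λ} (h : W ∈ Adm Λ) : NN W := by
  induction h using Submonoid.closure_induction with
  | mem M h =>
    rcases h with ⟨x, y, p, h0, h1, rfl⟩ | ⟨ζ, hζ, rfl⟩
    · refine (nn_one.smul (sub_nonneg.2 h1)).add (NN.smul (fun i j => ?_) h0)
      simp only [swp, Matrix.of_apply]; split_ifs <;> norm_num
    · intro i j
      rw [fug, Matrix.diagonal_apply]; split_ifs <;> positivity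
  | one => exact nn_one
  | mul A B _ _ hA hB => exact hA.mul hB

theorem nn_cr (x : Λ) : NN (cr x) := nn_tens fun y i j => by split_ifs <;> norm_num
theorem nn_an (x : Λ) : NN (an x) := nn_tens fun y i j => by split_ifs <;> norm_num
omit [DecidableEq Λ] in
theorem nn_Ecr {a : Λ → ℝ} (ha : ∀ x, 0 ≤ a x) : NN (Ecr a) :=
  nn_tens fun y i j => by have := ha y; split_ifs <;> positivity
omit [DecidableEq Λ] in
theorem nn_Ean {a : Λ → ℝ} (ha : ∀ x, 0 ≤ a x) : NN (Ean a) :=
  nn_tens fun y i j => by have := ha y; split_ifs <;> positivity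
theorem nn_crF {a : Λ → ℝ} (ha : ∀ x, 0 ≤ a x) : NN (crF a) := fun i j => by
  rw [crF, Matrix.sum_apply]; exact Finset.sum_nonneg fun x _ => (nn_cr x).smul (ha x) i j
theorem nn_anF {a : Λ → ℝ} (ha : ∀ x, 0 ≤ a x) : NN (anF a) := fun i j => by
  rw [anF, Matrix.sum_apply]; exact Finset.sum_nonneg fun x _ => (nn_an x).smul (ha x) i j
theorem nn_nb (A : Finset Λ) : NN (nb A) := fun i j => by
  rw [nb, Matrix.diagonal_apply]; split_ifs <;> norm_num

theorem tens_one : tens (fun (_ : Λ) i j => if i = j then (1 : ℝ) else 0) = 1 := by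
  ext σ τ
  simp only [tens, Matrix.of_apply, Matrix.one_apply, Finset.prod_boole, Finset.mem_univ,
    forall_true_left, funext_iff]
theorem Ecr_zero : Ecr (fun _ : Λ => (0 : ℝ)) = 1 := by rw [← tens_one, Ecr]; simp
theorem Ean_zero : Ean (fun _ : Λ => (0 : ℝ)) = 1 := by rw [← tens_one, Ean]; simp
theorem crF_zero : crF (fun _ : Λ => (0 : ℝ)) = 0 := by simp [crF]
theorem anF_zero : anF (fun _ : Λ => (0 : ℝ)) = 0 := by simp [anF]
theorem crF_mul (c : ℝ) (b : Λ → ℝ) : crF (fun x => c * b x) = c • crF b := by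
  simp [crF, Finset.smul_sum, mul_smul]
theorem anF_mul (c : ℝ) (b : Λ → ℝ) : anF (fun x => c * b x) = c • anF b := by
  simp [anF, Finset.smul_sum, mul_smul]

/-- first order term of a product of one-slot flips -/
theorem sum_flip_le (P Q : Bool → Bool → Prop) [∀ i j, Decidable (P i j)]
    [∀ i j, Decidable (Q i j)] (hP : ∀ i j, P i j → i ≠ j ∧ Q i j) {a : Λ → ℝ} (ha : ∀ x, 0 ≤ a x) :
    LeE (∑ x, a x • tens fun y i j =>
      if y = x then (if P i j then (1 : ℝ) else 0) else (if i = j then 1 else 0))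
      (tens fun x i j => if i = j then 1 else if Q i j then a x else 0) := by
  intro σ τ
  rw [Matrix.sum_apply]
  have h0 : ∀ y, 0 ≤ (if σ y = τ y then 1 else if Q (σ y) (τ y) then a y else 0) := fun y => by
    have := ha y; split_ifs <;> positivity
  by_cases h : ∃ x, P (σ x) (τ x)
  · obtain ⟨x, hx⟩ := h
    rw [Finset.sum_eq_single x (fun z _ hz => ?_) (by simp)]
    · simp only [tens, Matrix.smul_apply, Matrix.of_apply, smul_eq_mul]
      rw [← Finset.mul_prod_erase _ _ (Finset.mem_univ x),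
        ← Finset.mul_prod_erase _ _ (Finset.mem_univ x), if_pos rfl, if_pos hx,
        if_neg (hP _ _ hx).1, if_pos (hP _ _ hx).2, one_mul]
      refine mul_le_mul_of_nonneg_left (Finset.prod_le_prod (fun y _ => ?_) fun y hy => ?_) (ha x)
      · split_ifs <;> norm_num
      · rw [if_neg (Finset.ne_of_mem_erase hy)]
        have := h0 y
        split_ifs at this ⊢ <;> simp [*]
    · simp only [tens, Matrix.smul_apply, Matrix.of_apply, smul_eq_mul]
      rw [Finset.prod_eq_zero (Finset.mem_univ x) (by rw [if_neg hz.symm, if_neg (hP _ _ hx).1]),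
        mul_zero]
  · rw [Finset.sum_eq_zero fun x _ => ?_]
    · exact Finset.prod_nonneg fun y _ => h0 y
    · simp only [tens, Matrix.smul_apply, Matrix.of_apply, smul_eq_mul]
      rw [Finset.prod_eq_zero (Finset.mem_univ x) (by rw [if_pos rfl, if_neg fun h' => h ⟨x, h'⟩]),
        mul_zero]
theorem crF_le {a : Λ → ℝ} (ha : ∀ x, 0 ≤ a x) : LeE (crF a) (Ecr a) :=
  sum_flip_le (fun i j => i = true ∧ j = false) (fun i _ => i = true) (by decide) ha
theorem anF_le {a : Λ → ℝ} (ha : ∀ x, 0 ≤ a x) : LeE (anF a) (Ean a) :=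
  sum_flip_le (fun i j => i = false ∧ j = true) (fun _ j => j = true) (by decide) ha

theorem pow_smul_nb (α : ℝ) (A : Finset Λ) : α ^ A.card • nb A =
    tens fun x i j => if i = j then (if x ∈ A then (if i = true then α else 0) else 1) else 0 := by
  ext σ τ
  simp only [tens, nb, Matrix.smul_apply, Matrix.of_apply, Matrix.diagonal_apply, smul_eq_mul]
  by_cases h : σ = τ
  · subst h
    simp only [if_true, Finset.prod_ite_mem, Finset.univ_inter]
    split_ifs with h
    · rw [mul_one, ← Finset.prod_const]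
      exact Finset.prod_congr rfl fun x hx => by rw [if_pos (h x hx)]
    · push Not at h
      obtain ⟨x, hx, h⟩ := h
      rw [mul_zero, Finset.prod_eq_zero hx (if_neg h)]
  · obtain ⟨x, hx⟩ := Function.ne_iff.1 h
    rw [if_neg h, mul_zero, Finset.prod_eq_zero (Finset.mem_univ x) (if_neg hx)]

section
variable {A : Finset Λ} {b : Λ → ℝ} (hb : ∀ u, 0 ≤ b u) (hA : ∀ u ∈ A, 1 ≤ b u) {α : ℝ}
  (hα : 0 < α)
include hb hA hα

theorem nb_le : LeE (α ^ A.card • nb A) (Ecr (fun x => α * b x) * Ean b) := by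
  rw [pow_smul_nb, Ecr, Ean, tens_mul_tens]
  refine tens_le (fun y i j => by split_ifs <;> positivity) fun y i j => ?_
  have h0 := hb y
  by_cases hy : y ∈ A
  · have h1 := hA y hy
    cases i <;> cases j <;> simp [hy] <;> first | positivity | nlinarith [mul_le_mul h1 h1 zero_le_one h0]
  · cases i <;> cases j <;> simp [hy] <;> positivity
theorem cr_nb_le {x : Λ} (hx : 1 ≤ b x) :
    LeE (α ^ A.card • (cr x * nb A)) (Ecr b * Ean fun x => α * b x) := by
  rw [← Matrix.mul_smul, pow_smul_nb, Ecr, Ean, cr, tens_mul_tens, tens_mul_tens]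
  refine tens_le (fun y i j => by split_ifs <;> positivity) fun y i j => ?_
  have h0 := hb y
  by_cases hyx : y = x
  · subst hyx
    by_cases hy : y ∈ A <;> cases i <;> cases j <;> simp [hy, hx] <;> positivity
  by_cases hy : y ∈ A
  · have h1 := hA y hy
    cases i <;> cases j <;> simp [hy, hyx] <;>
      first | positivity | nlinarith [mul_le_mul h1 h1 zero_le_one h0]
  · cases i <;> cases j <;> simp [hy, hyx] <;> positivity
theorem nb_an_le {x : Λ} (hx : 1 ≤ b x) :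
    LeE (α ^ A.card • (nb A * an x)) (Ecr (fun x => α * b x) * Ean b) := by
  rw [← Matrix.smul_mul, pow_smul_nb, Ecr, Ean, an, tens_mul_tens, tens_mul_tens]
  refine tens_le (fun y i j => by split_ifs <;> positivity) fun y i j => ?_
  have h0 := hb y
  by_cases hyx : y = x
  · subst hyx
    by_cases hy : y ∈ A <;> cases i <;> cases j <;> simp [hy, hx] <;> positivity
  by_cases hy : y ∈ A
  · have h1 := hA y hy
    cases i <;> cases j <;> simp [hy, hyx] <;>
      first | positivity | nlinarith [mul_le_mul h1 h1 zero_le_one h0]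
  · cases i <;> cases j <;> simp [hy, hyx] <;> positivity
end

/-- optimisation of an exponential moment bound -/
theorem le_of_exp {x Z q : ℝ} {m : ℕ} (hm : 1 ≤ m) (hq : 0 ≤ q)
    (h : ∀ a, 0 < a → a ^ m * x ≤ Z * Real.exp (a * q)) : x ≤ Z * (Real.exp 1 * q / m) ^ m := by
  have hm' : (0 : ℝ) < m := by exact_mod_cast hm
  rcases hq.eq_or_lt with rfl | hq
  · rw [mul_zero, zero_div, zero_pow (by omega), mul_zero]
    by_contra hx
    push Not at hx
    have h1 := h (max 1 (Z / x + 1)) (lt_max_of_lt_left one_pos)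
    have h2 : Z / x + 1 ≤ max 1 (Z / x + 1) ^ m :=
      (le_max_right _ _).trans (le_self_pow₀ (le_max_left _ _) (by omega))
    have h3 := mul_le_mul_of_nonneg_right h2 hx.le
    rw [add_mul, div_mul_cancel₀ _ hx.ne'] at h3
    rw [mul_zero, Real.exp_zero] at h1
    linarith
  · have h1 := h (m / q) (by positivity)
    rw [div_mul_cancel₀ _ hq.ne', ← le_div_iff₀' (by positivity)] at h1
    refine h1.trans_eq ?_
    rw [mul_div_assoc (Real.exp 1), mul_pow, ← Real.exp_nat_mul, mul_one, div_eq_mul_inv,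
      ← inv_pow, inv_div, mul_assoc]

theorem le_of_exp₂ {x Z q t : ℝ} {m : ℕ} (hm : 1 ≤ m) (hq : 0 ≤ q) (ht : 0 ≤ t) (hZ : 0 < Z)
    (h : ∀ a g, 0 < a → 0 < g → a ^ m * (g * x) ≤ Z * Real.exp ((a * q + g * t) / Z)) :
    x ≤ Real.exp 1 * (Real.exp 1 * (q / Z) / m) ^ m * t := by
  have := le_of_exp (x := x) (Z := Z * (Real.exp 1 * (q / Z) / m) ^ m) (q := t / Z) le_rfl
    (by positivity) fun g hg => by
      have := le_of_exp (x := g * x) (Z := Z * Real.exp (g * (t / Z))) (q := q / Z) hm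
        (by positivity) fun a ha => (h a g ha hg).trans_eq (by
          rw [mul_assoc, ← Real.exp_add]; congr 2; ring)
      rw [pow_one]; exact this.trans_eq (by ring)
  refine this.trans_eq ?_
  field_simp
  simp

/-- **(Cor)** -/
theorem cor (hLY : LYStmt) : CorStmt := by
  intro Λ _ _ W1 W2 h1 h2 hZ A b hne hb hA Z
  have n1 := adm_nonneg h1
  have n2 := adm_nonneg h2
  have hm : 1 ≤ A.card := hne.card_pos
  have LY := hLY Λ W1 W2 (subset_closure h1) (subset_closure h2) hZ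
  have hz : ∀ x : Λ, (0 : ℝ) ≤ (fun _ : Λ => (0 : ℝ)) x := fun _ => le_rfl
  have hbb := (nn_crF hb).mul (nn_anF hb)
  refine ⟨le_of_exp hm (div_nonneg (hbb.mul (n1.mul n2)).trace hZ.le) fun α hα => ?_,
    fun c x hc hx => ⟨le_of_exp₂ hm (hbb.mul (n2.mul n1)).trace
      ((((nn_anF hc).mul n1).mul (nn_crF hb)).mul n2).trace hZ fun α γ hα hγ => ?_,
      le_of_exp₂ hm (hbb.mul (n1.mul n2)).trace
      ((((nn_anF hb).mul n1).mul (nn_crF hc)).mul n2).trace hZ fun α γ hα hγ => ?_⟩⟩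
  · have := LY _ _ _ b hz hz (fun x => mul_nonneg hα.le (hb x)) hb
    rw [Ecr_zero, Ean_zero, crF_zero, anF_zero, crF_mul] at this
    have h3 := ((nb_le hb hA hα).mul_right (n1.mul n2)).trace
    simp only [Matrix.smul_mul, Matrix.trace_smul, smul_eq_mul, mul_one, mul_zero, zero_mul,
      Matrix.trace_zero, zero_add, add_zero, mul_assoc] at this h3 ⊢
    rw [← mul_div_assoc]
    exact h3.trans this
  · have hαb : ∀ x, 0 ≤ α * b x := fun x => mul_nonneg hα.le (hb x)
    have hγc : ∀ x, 0 ≤ γ * c x := fun x => mul_nonneg hγ.le (hc x)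
    have := LY b _ _ _ hb hαb hz hγc
    have h3 := (((((anF_le hγc).mul_right n1).mul_right (((nn_cr x).mul (nn_nb A)).smul
      (pow_pos hα A.card).le)).trans ((cr_nb_le hb hA hα hx).mul_left
        ((nn_Ean hγc).mul n1))).mul_right n2).trace
    rw [Ecr_zero, crF_zero, anF_mul, anF_mul, Matrix.trace_mul_cycle W1 (crF b * _),
      Matrix.trace_mul_cycle W2 W1] at this
    rw [anF_mul] at h3
    have e : (crF b * α • anF b * W2 * W1).trace = α * (crF b * anF b * (W2 * W1)).trace := by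
      simp [mul_assoc]
    rw [e] at this
    simp only [Matrix.smul_mul, Matrix.mul_smul, Matrix.trace_smul, smul_eq_mul, one_mul, zero_mul,
      Matrix.trace_zero, add_zero] at this h3 ⊢
    exact h3.trans this
  · have hαb : ∀ x, 0 ≤ α * b x := fun x => mul_nonneg hα.le (hb x)
    have hγc : ∀ x, 0 ≤ γ * c x := fun x => mul_nonneg hγ.le (hc x)
    have := LY _ _ _ b hγc hz hαb hb
    have h3 := (((((nb_an_le hb hA hα hx).mul_right n1).mul_right (nn_crF hγc)).trans
      ((crF_le hγc).mul_left (((nn_Ecr hαb).mul (nn_Ean hb)).mul n1))).mul_right n2).trace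
    rw [Ean_zero, anF_zero, crF_mul, crF_mul] at this
    rw [crF_mul] at h3
    simp only [Matrix.smul_mul, Matrix.mul_smul, Matrix.trace_smul, smul_eq_mul, mul_one, zero_mul,
      mul_zero, smul_zero, Matrix.trace_zero, add_zero, zero_add, mul_assoc] at this h3 ⊢
    rw [add_comm (α * _), mul_left_comm]
    exact h3.trans this

end Crest.Agent.N337.KV
end

-- ▼ part N337/KV/Main
section

/-!
# Row 337, part KV: `KVStmt` from `LYStmt` (helper23)
-/

set_option autoImplicit false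
set_option linter.unusedSectionVars false

namespace Crest.Agent.N337.KV

open Crest.MathPhysics.SpinModel Crest.Agent.N337.Slot Finset Matrix Filter Topology

variable {X : Type} [Fintype X] [DecidableEq X] {n : ℕ}

theorem lift_sum {U : Matrix (X × Fin n → Bool) (X → Fin (n + 1)) ℝ} {S : X → Op X n}
    {s : X × Fin n → BOp (X × Fin n)} (h : ∀ x, cx U * S x = cx (∑ i : Fin n, s (x, i)) * cx U)
    (a : X → ℝ) : cx U * (∑ x, ((a x : ℝ) : ℂ) • S x) =
      cx (∑ u : X × Fin n, a u.1 • s u) * cx U := by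
  have e : cx (∑ u : X × Fin n, a u.1 • s u) =
      ∑ x, ((a x : ℝ) : ℂ) • cx (∑ i : Fin n, s (x, i)) := by
    ext σ τ
    simp [Matrix.sum_apply, Fintype.sum_prod_type, Finset.mul_sum]
  rw [e, Matrix.mul_sum, Matrix.sum_mul]
  exact Finset.sum_congr rfl fun x _ => by rw [Matrix.mul_smul, Matrix.smul_mul, h]

theorem lift_mul {U : Matrix (X × Fin n → Bool) (X → Fin (n + 1)) ℝ} {A B : Op X n}
    {A' B' : BOp (X × Fin n)} (hA : cx U * A = cx A' * cx U) (hB : cx U * B = cx B' * cx U) :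
    cx U * (A * B) = cx (A' * B') * cx U := by
  have e : cx (A' * B') = cx A' * cx B' := Matrix.map_mul (f := Complex.ofRealHom)
  rw [← Matrix.mul_assoc, hA, Matrix.mul_assoc, hB, e, Matrix.mul_assoc]

theorem SmF_ind (B : Finset X) : SmF n (ind B) = ∑ v ∈ B, Sm n v := by
  simp only [SmF, ind, apply_ite ((↑) : ℝ → ℂ), Complex.ofReal_one, Complex.ofReal_zero, ite_smul,
    one_smul, zero_smul, Finset.sum_ite_mem, Finset.univ_inter]


theorem ev_small {β h κ ρ : ℝ} (hβ : 0 < β) (hh : 0 < h) (hκ : κ < 1) :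
    ∀ᶠ M : ℕ in atTop, κ ≤ Real.exp (-(β / M * h)) ^ 2 ∧
      2 * κ * (β / M) * h ≤ 1 - Real.exp (-(β / M * h)) ^ 2 - 16 * (β / M * ρ) ^ 2 := by
  have h0 : Tendsto (fun M : ℕ => β / M) atTop (𝓝 0) := tendsto_const_div_atTop_nhds_zero_nat β
  have h1 : ∀ᶠ M : ℕ in atTop, β / M * (2 * h) < 1 - κ :=
    (h0.mul_const (2 * h)).eventually_lt_const (by rw [zero_mul]; linarith)
  have h2 : ∀ᶠ M : ℕ in atTop, β / M * (4 * h ^ 2 + 16 * ρ ^ 2) < 2 * (1 - κ) * h :=
    (h0.mul_const _).eventually_lt_const (by rw [zero_mul]; nlinarith)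
  filter_upwards [h1, h2] with M h1 h2
  set δ := β / M with hδ
  have hδ0 : 0 ≤ δ := by positivity
  have e : Real.exp (-(δ * h)) ^ 2 = Real.exp (-(δ * (2 * h))) := by
    rw [← Real.exp_nat_mul]; congr 1; push_cast; ring
  rw [e]
  set t := δ * (2 * h) with ht
  have ht0 : 0 ≤ t := by positivity
  have a1 := Real.add_one_le_exp (-t)
  have a2 : Real.exp (-t) ≤ 1 - t + t ^ 2 := by
    have b1 := Real.add_one_le_exp t
    have b2 : Real.exp (-t) * Real.exp t = 1 := by rw [← Real.exp_add]; simp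
    have b3 := Real.exp_pos (-t)
    have b4 : Real.exp (-t) * (t + 1) ≤ 1 := by nlinarith
    by_contra hcon
    push Not at hcon
    nlinarith [mul_pos (sub_pos.2 hcon) (show 0 < t + 1 by linarith), pow_nonneg ht0 3]
  refine ⟨by linarith, ?_⟩
  have := mul_le_mul_of_nonneg_left h2.le hδ0
  simp only [ht] at a2 ⊢
  nlinarith

theorem kv_of (hrep : RepStmt) (hcor : CorStmt) (hlim : LimStmt) (hslot : SlotStmt) : KVStmt := by
  intro X _ _ n J β h hn hJ hβ hh a ha c0 c 𝒲 hc00 hc hc0 hW0 hG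
  rcases isEmpty_or_nonempty X with he | ⟨⟨x0⟩⟩
  · have e : Df n J β h a = 0 := by simp [Df, duh, SpF]
    have e2 : ∑ A : Finset X, c A * rar n J β h A A.card = 0 :=
      Finset.sum_eq_zero fun A _ => by rw [Finset.eq_empty_of_isEmpty A, hc0, zero_mul]
    rw [e, e2]
    simp only [Finset.univ_eq_empty, Finset.sum_empty, mul_zero, add_zero]
    positivity
  choose Good hdis hquad hW using hG
  obtain ⟨U, e0, w, hw, hU, hP, hSp, hSm, hH⟩ := hslot X n J h hn hJ
  obtain ⟨l1, l2⟩ := hlim X n J β h e0 U hβ hU hH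
  have hp : ∀ b : X → ℝ, cx U * SpF n b = cx (aF n b) * cx U := fun b => lift_sum hSp b
  have hm : ∀ b : X → ℝ, cx U * SmF n b = cx (cF n b) * cx U := fun b => lift_sum hSm b
  set V : ℕ → BOp (X × Fin n) := fun M =>
    per (U * U.transpose) (fun u v : X × Fin n => J u.1 v.1 / 2) h (β / M) with hV
  have t1 : ∀ b b' : X → ℝ, Tendsto (fun M : ℕ => rs β M (V M) (aF n b) (cF n b')) atTop
      (𝓝 (duh n J β h (SpF n b) (SmF n b'))) := fun b b' => l2 _ _ _ _ (hp b) (hm b')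
  have t2 : ∀ (B : Finset X) (m : ℕ), Tendsto (fun M : ℕ => rarM n (V M ^ M) B m) atTop
      (𝓝 (rar n J β h B m)) := fun B m =>
    (((l1 _ _ (lift_mul (hm (ind B)) (hp (ind B)))).const_mul _).div_const _).pow m
  set S1 := c0 + ∑ A : Finset X, c A * rar n J β h A A.card with hS1
  set S2 := ∑ x : X, a x * ∑ B ∈ 𝒲 x, rar n J β h (insert x B) B.card *
    ∑ v ∈ insert x B, duh n J β h (SpF n a) (Sm n v) with hS2
  have key : ∀ κ : ℝ, 0 < κ → κ < 1 → Df n J β h a ≤ n / κ * S1 + 2 * n * Real.exp 1 * S2 := by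
    intro κ hκ0 hκ1
    have h0 : Tendsto (fun M : ℕ => β / M) atTop (𝓝 0) := tendsto_const_div_atTop_nhds_zero_nat β
    have hp1 : ∀ᶠ M : ℕ in atTop, ∀ x y, β / M * (J x y / 2) / 2 ≤ 1 :=
      Filter.eventually_all.2 fun x => Filter.eventually_all.2 fun y =>
        (((h0.mul_const (J x y / 2)).div_const 2).eventually_lt_const
          (by norm_num : 0 * (J x y / 2) / 2 < 1)).mono fun M hM => hM.le
    have hev := (hp1.and (ev_small (ρ := ∑ q : (X × Fin n) × (X × Fin n), J q.1.1 q.2.1 / 2 / 2)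
      hβ hh hκ1)).and (eventually_ge_atTop 2) |>.mono fun M hM =>
        fin_at hrep hcor hn hJ.nonneg hβ hh hκ0 (x0, ⟨0, hn⟩) w hw a ha c0 c 𝒲 hc00 hc hc0 hW0 Good
          hdis hquad hW hM.2 hM.1.1 hM.1.2.1 hM.1.2.2 (V M) (by rw [hV, hP])
    refine le_of_tendsto_of_tendsto (t1 a a) ?_ hev
    have t3 := (((tendsto_const_nhds (x := c0)).add (tendsto_finsetSum Finset.univ fun A _ =>
      (t2 A A.card).const_mul (c A))).const_mul (n / κ)).add
      ((tendsto_finsetSum Finset.univ fun x _ => (tendsto_finsetSum (𝒲 x) fun B _ =>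
        (t2 (insert x B) B.card).mul ((t1 a (ind (insert x B))).add
          (t1 (ind (insert x B)) a))).const_mul (a x)).const_mul (n * Real.exp 1))
    have t4 := t3.add (tendsto_const_div_atTop_nhds_zero_nat
      (β * (2 * (∑ u : X × Fin n, a u.1) ^ 2 * (1 / (1 - Real.exp (-(β * h)))) *
        (2 ^ Fintype.card (X × Fin n) *
          (β * ∑ q : (X × Fin n) × (X × Fin n), J q.1.1 q.2.1 / 2 / 2)))))
    convert t4 using 2
    rw [add_zero, hS1, hS2]
    congr 1
    simp only [Finset.mul_sum (a := 2 * n * Real.exp 1), Finset.mul_sum (a := n * Real.exp 1)]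
    refine Finset.sum_congr rfl fun x _ => ?_
    have e : ∀ B ∈ 𝒲 x, rar n J β h (insert x B) B.card *
        (duh n J β h (SpF n a) (SmF n (ind (insert x B))) +
          duh n J β h (SpF n (ind (insert x B))) (SmF n a)) =
        2 * (rar n J β h (insert x B) B.card *
          ∑ v ∈ insert x B, duh n J β h (SpF n a) (Sm n v)) := fun B _ => by
      rw [duh_SpF_SmF_symm J β h (ind (insert x B)) a, SmF_ind, duh_sum_right]; ring
    rw [Finset.sum_congr rfl e, ← Finset.mul_sum]; ring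
  have hlimκ : Tendsto (fun κ : ℝ => n / κ * S1 + 2 * n * Real.exp 1 * S2) (𝓝[<] 1)
      (𝓝 (n / 1 * S1 + 2 * n * Real.exp 1 * S2)) :=
    ((((continuousAt_const.div continuousAt_id one_ne_zero).mul continuousAt_const).add
      continuousAt_const).tendsto).mono_left nhdsWithin_le_nhds
  rw [div_one] at hlimκ
  refine ge_of_tendsto hlimκ ?_
  filter_upwards [Ioo_mem_nhdsLT (zero_lt_one' ℝ)] with κ hκ using key κ hκ.1 hκ.2

/-- **(KV)** from the Lee-Yang bound. -/
theorem kv (hLY : LYStmt) : KVStmt := kv_of Rep.rep (cor hLY) lim slot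

end Crest.Agent.N337.KV
end

-- ▼ part N337/KV/Done
section

/-! # Row 337: `KVStmt` unconditionally (helper23) -/

namespace Crest.Agent.N337.KV

theorem kvStmt : KVStmt := kv Slot.ly

end Crest.Agent.N337.KV
end

-- ▼ part N337/Geo/Main
section

/-!
# Row 337, Geo (helper6), part 3: the scales; `geo : GeoStmt`
-/

set_option autoImplicit false

namespace Crest.Agent.N337.Geo

open Finset Free

/-- diameters -/
def Dd (t : ℕ) : ℕ → ℕ
  | 0 => 0
  | j + 1 => 7 * Dd t j + 2 * t + 1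

theorem four_pow_le {t : ℕ} (ht : 1 ≤ t) (j : ℕ) : 4 ^ j ≤ Dd t j + 1 := by
  induction j with
  | zero => simp [Dd]
  | succ j ih =>
    rcases j with _ | j
    · simp only [Dd]; omega
    · have : 1 ≤ Dd t (j + 1) := by simp only [Dd]; omega
      rw [pow_succ, Dd]; omega

theorem Dd_le {t : ℕ} (ht : 1 ≤ t) (j : ℕ) : 12 * (Dd t j + t) ≤ (12 * t) ^ (j + 1) := by
  induction j with
  | zero => simp [Dd]
  | succ j ih =>
    rw [pow_succ, Dd]
    calc _ ≤ 12 * (Dd t j + t) * 7 := by omega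
      _ ≤ _ := Nat.mul_le_mul ih (by omega)

variable {d L : ℕ} [NeZero L]

/-- witnesses of level `j` -/
def WW (t : ℕ) : ℕ → Tor d L → Finset (Finset (Tor d L))
  | 0, u => {{u}}
  | j + 1, u => (WW t j u).biUnion fun B =>
      (bl u (6 * Dd t j + 2 * t + 1) \ bl u (3 * Dd t j)).biUnion fun v => (WW t j v).image (B ∪ ·)

theorem mem_WW {t j : ℕ} {u : Tor d L} {A : Finset (Tor d L)} : A ∈ WW t (j + 1) u ↔
    ∃ B ∈ WW t j u, ∃ v, (tdist u v ≤ 6 * Dd t j + 2 * t + 1 ∧ 3 * Dd t j < tdist u v) ∧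
      ∃ B' ∈ WW t j v, B ∪ B' = A := by
  simp [WW, mem_bl]

theorem WW_spec {t : ℕ} (ht : 1 ≤ t) (j : ℕ) : ∀ u : Tor d L, ∀ B ∈ WW t j u, B.card = 2 ^ j ∧
    (∀ x ∈ B, tdist u x ≤ Dd t j) ∧
    ∀ x ∈ B, ∑ y ∈ B.erase x, 1 / (tdist x y : ℝ) ≤ 2 - 2 / 2 ^ j := by
  induction j with
  | zero => simp [WW, tdist_self]
  | succ j ih =>
    intro u A hA
    obtain ⟨B, hB, v, ⟨h1, h2⟩, B', hB', rfl⟩ := mem_WW.1 hA
    obtain ⟨a1, a2, a3⟩ := ih u B hB
    obtain ⟨b1, b2, b3⟩ := ih v B' hB'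
    have far : ∀ x ∈ B, ∀ y ∈ B', 4 ^ j ≤ tdist x y := fun x hx y hy => by
      have := a2 x hx
      have := b2 y hy
      have := tdist_triangle u x v
      have := tdist_triangle x y v
      have := tdist_comm y v
      have := four_pow_le ht j
      omega
    have dj : Disjoint B B' := disjoint_left.2 fun x hx hx' => by
      have := far x hx x hx'
      rw [tdist_self] at this
      exact absurd this (not_le.2 (by positivity))
    have key : ∀ {B B' : Finset (Tor d L)} {x}, Disjoint B B' → B'.card = 2 ^ j →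
        (∀ y ∈ B', 4 ^ j ≤ tdist x y) → ∑ y ∈ B.erase x, 1 / (tdist x y : ℝ) ≤ 2 - 2 / 2 ^ j →
        ∑ y ∈ (B ∪ B').erase x, 1 / (tdist x y : ℝ) ≤ 2 - 2 / 2 ^ (j + 1) := by
      intro B B' x dj hc hf h
      rw [erase_union_distrib, sum_union (dj.mono (erase_subset _ _) (erase_subset _ _))]
      have h3 := sum_le_card_nsmul (B'.erase x) (fun y => 1 / (tdist x y : ℝ)) (1 / 4 ^ j)
        fun y hy => one_div_le_one_div_of_le (by positivity)
          (by exact_mod_cast hf y (mem_of_mem_erase hy))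
      have h4 : ((B'.erase x).card : ℝ) ≤ 2 ^ j := by exact_mod_cast hc ▸ card_erase_le
      rw [nsmul_eq_mul] at h3
      have h5 : (2 : ℝ) ^ j * (1 / 4 ^ j) = 2 / 2 ^ j - 2 / 2 ^ (j + 1) := by
        rw [show (4 : ℝ) = 2 * 2 by norm_num, mul_pow, pow_succ]; field_simp; norm_num
      linarith [mul_le_mul_of_nonneg_right h4 (show (0 : ℝ) ≤ 1 / 4 ^ j by positivity)]
    refine ⟨by rw [card_union_of_disjoint dj, a1, b1]; ring, fun x hx => ?_, fun x hx => ?_⟩
    · rw [Dd]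
      rcases mem_union.1 hx with h | h
      · have := a2 x h; omega
      · have := b2 x h; have := tdist_triangle u v x; omega
    · rcases mem_union.1 hx with h | h
      · exact key dj b1 (far x h) (a3 x h)
      · exact union_comm B B' ▸ key dj.symm a1 (fun y hy => tdist_comm x y ▸ far y hy x h) (b3 x h)

theorem card_WW {t : ℕ} {c : ℝ} (hc : 1 ≤ c)
    (h : ∀ j, ((2 * (6 * Dd t j + 2 * t + 1) + 1 : ℕ) : ℝ) ^ d ≤ c ^ (j + 1)) (j : ℕ) :
    ∀ u : Tor d L, ((WW t j u).card : ℝ) ≤ (c ^ 2) ^ 2 ^ j / c ^ (j + 2) := by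
  have hc0 : 0 < c := by linarith
  induction j with
  | zero => intro u; simp [WW, hc0.ne']
  | succ j ih =>
    intro u
    have h1 : ∀ (s : Finset (Tor d L)) (B : Finset (Tor d L)),
        ((s.biUnion fun v => (WW t j v).image (B ∪ ·)).card : ℝ) ≤
          s.card * ((c ^ 2) ^ 2 ^ j / c ^ (j + 2)) := fun s B => by
      refine (Nat.cast_le.2 card_biUnion_le).trans ?_
      rw [Nat.cast_sum, ← nsmul_eq_mul]
      exact sum_le_card_nsmul _ _ _ fun v _ => (Nat.cast_le.2 card_image_le).trans (ih v)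
    refine (Nat.cast_le.2 card_biUnion_le).trans ?_
    rw [Nat.cast_sum]
    refine (sum_le_card_nsmul _ _ _ fun B _ => h1 _ B).trans ?_
    have h2 := ((Nat.cast_le.2 (card_le_card (sdiff_subset (t := bl u (3 * Dd t j))))).trans
      (card_bl u _)).trans (h j)
    rw [nsmul_eq_mul]
    calc _ ≤ (c ^ 2) ^ 2 ^ j / c ^ (j + 2) * (c ^ (j + 1) * ((c ^ 2) ^ 2 ^ j / c ^ (j + 2))) := by
          gcongr; exact ih u
      _ = _ := by rw [pow_succ 2 j, pow_mul _ _ 2]; field_simp; ring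

variable (t : ℕ) (R : Finset (Tor d L))

/-- points with a red witness of level `j` -/
def EE (j : ℕ) (u : Tor d L) : Prop := ∃ B ∈ WW t j u, B ⊆ R

/-- the invariant -/
structure Inv (J : Tor d L → Tor d L → ℝ) (K : ℝ) (jm : ℕ) (U Good : Finset (Tor d L))
    (w : Tor d L → ℝ) : Prop where
  st : St J R U Good w
  dj : Disjoint Good R
  cov : ∀ x ∉ Good, ∃ j ≤ jm, ∃ u, tdist x u ≤ 3 * Dd t j + t ∧ EE t R j u
  wt : ∀ x, w x = 1 ∨ ∃ j ≤ jm, w x ≤ K ^ 2 ^ j ∧ ∃ u, tdist x u ≤ 3 * Dd t j + t ∧ EE t R j u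

variable {t R}

theorem level {J : Tor d L → Tor d L → ℝ} (hs : ∀ x y, J x y = J y x) (h0 : ∀ x y, 0 ≤ J x y)
    (hJ : ∀ x y, J x y ≠ 0 → tdist x y ≤ t) {c C : ℝ} {jm j : ℕ} (hj : j ≤ jm) (hc : 1 ≤ c)
    (hC : 1 + C ≤ c ^ 2 ^ j) (hC' : ∀ u : Tor d L, ((bl u (3 * Dd t j)).card : ℝ) ≤ C)
    (H : ∀ u : Tor d L, ∃ r ∈ bl u (3 * Dd t j + t) \ bl u (3 * Dd t j), ∀ φ : Tor d L → ℝ,
      2 * ∑ x ∈ bl u (3 * Dd t j), ∑ y ∈ bl u (3 * Dd t j + t) \ bl u (3 * Dd t j),
        J x y * (φ r - φ y) ^ 2 ≤ C * ∑ x ∈ bl u (3 * Dd t j + t) \ bl u (3 * Dd t j),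
          ∑ y ∈ bl u (3 * Dd t j + t) \ bl u (3 * Dd t j), J x y * (φ x - φ y) ^ 2)
    (U : Finset (Tor d L)) : ∀ Good w, Inv t R J (c ^ 2) jm U Good w → (∀ u ∈ U, EE t R j u) →
      (∀ x, w x ≤ c ^ 2 ^ j ∨ (w x ≤ c ^ 2 ^ (j + 1) ∧ ∃ u, EE t R j u ∧ ¬ EE t R (j + 1) u ∧
        tdist u x ≤ 3 * Dd t j + t ∧ ∀ v ∈ U, 3 * Dd t j < tdist u v)) →
      ∃ U Good w, Inv t R J (c ^ 2) jm U Good w ∧ (∀ u ∈ U, EE t R (j + 1) u) ∧
        ∀ x, w x ≤ c ^ 2 ^ (j + 1) := by
  have gap : ∀ u v, EE t R j u → ¬ EE t R (j + 1) u → EE t R j v → 3 * Dd t j < tdist u v →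
      6 * Dd t j + 2 * t + 1 < tdist u v := fun u v ⟨B, hB, h1⟩ hu ⟨B', hB', h2⟩ h =>
    not_le.1 fun h' => hu ⟨_, mem_WW.2 ⟨B, hB, v, ⟨h', h⟩, B', hB', rfl⟩, union_subset h1 h2⟩
  have e2 : c ^ 2 ^ (j + 1) = c ^ 2 ^ j * c ^ 2 ^ j := by rw [pow_succ, pow_mul, sq]
  have h1 : 1 ≤ c ^ 2 ^ j := one_le_pow₀ hc
  induction U using Finset.strongInduction with
  | H U ih =>
  intro Good w I hU hw
  by_cases hE : ∀ u ∈ U, EE t R (j + 1) u
  · exact ⟨U, Good, w, I, hE, fun x => (hw x).elim (fun h => h.trans (by nlinarith)) And.left⟩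
  push Not at hE
  obtain ⟨u, hu, hE⟩ := hE
  obtain ⟨r, hr, H⟩ := H u
  have hQ : ∀ x ∈ bl u (3 * Dd t j) ∪ (bl u (3 * Dd t j + t) \ bl u (3 * Dd t j)),
      tdist u x ≤ 3 * Dd t j + t := fun x hx => by
    simp only [mem_union, mem_sdiff, mem_bl] at hx; omega
  have hst := I.st.fill hs h0 (W := c ^ 2 ^ j) (W' := c ^ 2 ^ (j + 1))
    (fun x hx => (mem_sdiff.1 hx).2) (fun x hx hx' => by
      simp only [mem_sdiff, mem_bl, not_le] at hx
      have := gap u x (hU u hu) hE (hU x hx') hx.2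
      omega) hr (fun x hx y hy h => by
      have := hJ x y h
      have := tdist_triangle u x y
      rw [mem_bl] at hx
      exact mem_sdiff.2 ⟨mem_bl.2 (by omega), hy⟩)
    (fun x hx => (hw x).resolve_right (by
      rintro ⟨-, v, v1, v2, v3, v4⟩
      have := gap v u v1 v2 (hU u hu) (v4 u hu)
      have := tdist_triangle v x u
      have := tdist_comm x u
      have := mem_bl.1 (mem_sdiff.1 hx).1
      omega)) H (hC' u) (by rw [e2]; gcongr)
  refine ih _ ⟨sdiff_subset, fun h => (mem_sdiff.1 (h hu)).2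
    (mem_bl.2 (by rw [tdist_self]; omega))⟩ _ _
    ⟨hst, I.dj.mono_left sdiff_subset, fun x hx => ?_, fun x => ?_⟩
    (fun v hv => hU v (mem_sdiff.1 hv).1) fun x => ?_
  · by_cases h : x ∈ Good
    · exact ⟨j, hj, u, tdist_comm u x ▸ hQ x (mem_union_left _ (by simpa [h] using hx)), hU u hu⟩
    · exact I.cov x h
  · split_ifs with h
    · exact .inr ⟨j, hj, by rw [← pow_mul, ← pow_succ'], u, tdist_comm u x ▸ hQ x h, hU u hu⟩
    · exact I.wt x
  · split_ifs with h
    · exact .inr ⟨le_rfl, u, hU u hu, hE, hQ x h, fun v hv =>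
        not_le.1 fun h => (mem_sdiff.1 hv).2 (mem_bl.2 h)⟩
    · exact (hw x).imp_right fun ⟨a, v, v1, v2, v3, v4⟩ =>
        ⟨a, v, v1, v2, v3, fun y hy => v4 y (mem_sdiff.1 hy).1⟩

end Crest.Agent.N337.Geo

namespace Crest.Agent.N337

open Finset Free Geo

theorem geo : GeoStmt := by
  intro d J hd hJ
  obtain ⟨t, κ, ht, hκ, H⟩ := shell hd hJ
  obtain ⟨g, hg⟩ : ∃ g : ℝ, g = ((12 * t : ℕ) : ℝ) ^ d := ⟨_, rfl⟩
  have hg1 : 1 ≤ g := hg ▸ one_le_pow₀ (by exact_mod_cast (by omega : 1 ≤ 12 * t))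
  obtain ⟨c, hc⟩ : ∃ c : ℝ, c = 2 * κ * g ^ 3 := ⟨_, rfl⟩
  have hg3 : g ≤ g ^ 3 := le_self_pow₀ hg1 (by norm_num)
  have hc2 : 2 ≤ c := by nlinarith
  have hgc : g ≤ c := by nlinarith
  have hc1 : 1 ≤ c := by linarith
  have hM : ∀ j m : ℕ, m ≤ 12 * (Dd t j + t) → (m : ℝ) ^ d ≤ g ^ (j + 1) := fun j m h => by
    rw [hg, ← pow_mul, mul_comm d, pow_mul]
    gcongr
    exact_mod_cast h.trans (Dd_le ht j)
  have hP : ∀ j, c ^ (j + 1) ≤ c ^ 2 ^ j := fun j => pow_le_pow_right₀ hc1 Nat.lt_two_pow_self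
  have hK : ∀ j, c ^ 2 ^ j ≤ (c ^ 2) ^ 2 ^ j := fun j => by gcongr; nlinarith
  refine ⟨c ^ 2, 0, by nlinarith, fun L _ _ => ?_⟩
  obtain ⟨hr, H⟩ := H L
  have hex : ∃ j, L ≤ 2 * (3 * Dd t j + t) := ⟨L, by
    have := four_pow_le ht L
    have := Nat.lt_pow_self (n := L) (show 1 < 4 by norm_num)
    omega⟩
  refine ⟨Nat.find hex, WW t, fun j => 3 * Dd t j + t, ?_, fun j u => ?_, fun j _ => ?_,
    fun j u B hB => ?_, fun R => ?_⟩
  · rcases h : Nat.find hex with _ | k
    · exact NeZero.pos L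
    · have := Nat.find_min hex (m := k) (by omega)
      have := four_pow_le ht k
      have : 2 ^ k ≤ 4 ^ k := Nat.pow_le_pow_left (by norm_num) k
      rw [pow_succ]; omega
  · refine (card_WW hc1 (fun j => (hM j _ (by omega)).trans (by gcongr)) j u).trans ?_
    exact div_le_self (by positivity) (one_le_pow₀ hc1)
  · exact (hM j (2 * (3 * Dd t j + t) + 1) (by omega)).trans ((pow_le_pow_left₀ (by linarith) hgc _).trans
      ((hP j).trans (hK j)))
  · obtain ⟨h1, h2, h3⟩ := WW_spec ht j u B hB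
    exact ⟨h1, fun x hx => (h2 x hx).trans (by dsimp only; omega), fun x hx => (h3 x hx).trans (by
      nlinarith [show (0 : ℝ) ≤ 2 / 2 ^ j by positivity])⟩
  have main : ∀ j ≤ Nat.find hex, ∃ U Good w, Inv t R (torJ J L) (c ^ 2) (Nat.find hex) U Good w ∧
      (∀ u ∈ U, EE t R j u) ∧ ∀ x, w x ≤ c ^ 2 ^ j := by
    intro j hj
    induction j with
    | zero =>
      have e : ∀ u ∈ R, EE t R 0 u := fun u hu => ⟨{u}, by simp [WW], by simpa using hu⟩
      exact ⟨R, Rᶜ, 1, ⟨St.init _ _ _, disjoint_compl_left, fun x hx => ⟨0, hj, x,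
        by rw [tdist_self]; exact Nat.zero_le _, e x (by simpa using hx)⟩, fun _ => .inl rfl⟩, e,
        fun _ => by simpa using hc1⟩
    | succ j ih =>
      obtain ⟨U, Good, w, I, h1, h2⟩ := ih (by omega)
      have h3 := hM j (2 * (3 * Dd t j + t) + 1) (by omega)
      have h4 : (1 : ℝ) ≤ ((2 * (3 * Dd t j + t) + 1 : ℕ) : ℝ) ^ d :=
        one_le_pow₀ (by exact_mod_cast (by omega : 1 ≤ 2 * (3 * Dd t j + t) + 1))
      refine level (torJ_symm hJ) (torJ_nonneg hJ) hr (by omega) hc1 (le_trans ?_ (hP j))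
        (fun u => (card_bl u _).trans ?_)
        (fun u => H u _ (not_le.1 (Nat.find_min hex (m := j) (by omega)))) U Good w I h1
        fun x => .inl (h2 x)
      · have h5 : 1 ≤ κ * (g ^ (j + 1)) ^ 3 := one_le_mul_of_one_le_of_one_le hκ
          (one_le_pow₀ (one_le_pow₀ hg1))
        have h6 : 2 * κ ≤ (2 * κ) ^ (j + 1) := le_self_pow₀ (by linarith) (by omega)
        calc _ ≤ κ * (g ^ (j + 1)) ^ 3 + κ * (g ^ (j + 1)) ^ 3 := by gcongr
          _ = 2 * κ * (g ^ 3) ^ (j + 1) := by rw [← pow_mul, ← pow_mul, mul_comm 3]; ring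
          _ ≤ _ := by rw [hc, mul_pow]; gcongr
      · refine le_trans (by gcongr; omega) ((le_self_pow₀ h4 (n := 3) (by norm_num)).trans ?_)
        exact le_mul_of_one_le_left (by positivity) hκ
  have e1 : ∀ ψ, 1 / 2 * En (torJ J L) R 1 ψ = dir (torJ J L) R ψ := fun ψ => by
    simp only [En, dir, ← mem_compl, sum_ite2, Pi.one_apply, max_self, div_one]
  have e2 : ∀ ψ, Ms R 1 ψ = ∑ x ∈ Rᶜ, ψ x ^ 2 := fun ψ => by
    simp only [Ms, ← mem_compl, sum_ite_mem, univ_inter, Pi.one_apply, div_one]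
  by_cases hE : ∃ u, EE t R (Nat.find hex) u
  · obtain ⟨u, hu⟩ := hE
    refine ⟨∅, 1, disjoint_empty_left _, fun x _ => ⟨_, le_rfl, u, ?_, hu⟩, fun _ => .inl rfl,
      fun ψ _ => ⟨0, fun _ => le_rfl, by simp, ?_, ?_⟩⟩
    · have := tdist_le_half x u
      have := Nat.find_spec hex
      dsimp only
      omega
    · simpa [dir] using sum_nonneg fun x _ => sum_nonneg fun y _ =>
        mul_nonneg (torJ_nonneg hJ x y) (sq_nonneg (ψ x - ψ y))
    · simpa using sum_nonneg fun x _ => sq_nonneg (ψ x)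
  · obtain ⟨U, Good, w, I, h1, -⟩ := main _ le_rfl
    obtain rfl : U = ∅ := eq_empty_of_forall_notMem fun u hu => hE ⟨u, h1 u hu⟩
    refine ⟨Good, w, I.dj, I.cov, fun x => (I.wt x).imp_right fun h => ⟨I.st.1 x, h⟩,
      fun ψ hψ => ?_⟩
    obtain ⟨φ, p0, p1, p2, p3⟩ := I.st.2 ψ hψ
    refine ⟨φ, p0, p1, ?_, ?_⟩
    · rw [← e1]
      exact mul_le_mul_of_nonneg_left (by simpa [En] using p2) (by norm_num)
    · rw [← e2]
      simpa [Ms] using p3

end Crest.Agent.N337
private theorem rz_01c537862f : type_of% @_root_.Crest.Agent.N337.Geo.Dd.eq_def := @_root_.Crest.Agent.N337.Geo.Dd.eq_def -- L14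
private theorem rz_45a77180e0 : type_of% @_root_.Crest.Agent.N337.Geo.Dd.eq_1 := @_root_.Crest.Agent.N337.Geo.Dd.eq_1 -- L14
private theorem rz_1b6576d024 : type_of% @_root_.Crest.Agent.N337.Geo.WW.eq_def := @_root_.Crest.Agent.N337.Geo.WW.eq_def -- L38
private theorem rz_4493393333 : type_of% @_root_.Crest.Agent.N337.Geo.WW.eq_1 := @_root_.Crest.Agent.N337.Geo.WW.eq_1 -- L38
end

-- ▼ part N337/Th/Limit
section

/-!
# Row 337: `thermo : ThermoStmt` (helper43)
-/

set_option autoImplicit false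

namespace Crest.Agent.N337.Th

open Crest.MathPhysics.SpinModel Filter Topology Free

/-! ### abstract limit -/

/-- `g` is asymptotically within `δ l` of `a l`. -/
def Appr (a δ g : ℕ → ℝ) : Prop := ∀ l, 1 ≤ l → ∀ ε > 0, ∀ᶠ L in atTop, |g L - a l| ≤ δ l + ε

theorem Appr.tendsto {a δ g : ℕ → ℝ} (hg : Appr a δ g) (hδ : Tendsto δ atTop (𝓝 0)) {p : ℝ}
    (ha : Tendsto a atTop (𝓝 p)) : Tendsto g atTop (𝓝 p) := by
  refine Metric.tendsto_nhds.2 fun ε hε => ?_
  obtain ⟨l, ⟨h1, h2⟩, h3⟩ := (((Metric.tendsto_nhds.1 ha (ε / 4) (by linarith)).and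
    (hδ.eventually_le_const (show (0 : ℝ) < ε / 4 by linarith))).and (eventually_ge_atTop 1)).exists
  filter_upwards [hg l h3 (ε / 4) (by linarith)] with L hL
  rw [Real.dist_eq] at h1 ⊢
  have := abs_sub_le (g L) (a l) p
  linarith

theorem Appr.exists_tendsto {a δ : ℕ → ℝ} (hg : Appr a δ a) (hδ : Tendsto δ atTop (𝓝 0)) :
    ∃ p, Tendsto a atTop (𝓝 p) := by
  refine cauchySeq_tendsto_of_complete (Metric.cauchySeq_iff.2 fun ε hε => ?_)
  obtain ⟨l, h2, h3⟩ := ((hδ.eventually_le_const (show (0 : ℝ) < ε / 8 by linarith)).and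
    (eventually_ge_atTop 1)).exists
  obtain ⟨N, hN⟩ := eventually_atTop.1 (hg l h3 (ε / 8) (by linarith))
  refine ⟨N, fun m hm k hk => ?_⟩
  have h4 := hN m hm
  have h5 := hN k hk
  rw [Real.dist_eq]
  rw [abs_sub_comm] at h5
  have := abs_sub_le (a m) (a l) (a k)
  linarith

theorem tendsto_fill {l : ℕ} (hl : 1 ≤ l) :
    Tendsto (fun L : ℕ => (((L / l : ℕ) : ℝ) * l) / L) atTop (𝓝 1) := by
  have h1 : Tendsto (fun L : ℕ => 1 - (l : ℝ) / L) atTop (𝓝 1) := by
    simpa using (tendsto_const_div_atTop_nhds_zero_nat (l : ℝ)).const_sub 1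
  refine tendsto_of_tendsto_of_tendsto_of_le_of_le' h1 tendsto_const_nhds ?_ ?_
  · filter_upwards [eventually_ge_atTop 1] with L hL
    have hL' : (0 : ℝ) < L := by exact_mod_cast hL
    have h2 : L ≤ L / l * l + l := by
      have := Nat.div_add_mod' L l
      have := Nat.mod_lt L hl
      omega
    have h3 : (L : ℝ) ≤ ((L / l : ℕ) : ℝ) * l + l := by exact_mod_cast h2
    rw [le_div_iff₀ hL', sub_mul, div_mul_cancel₀ _ hL'.ne']
    linarith
  · filter_upwards [eventually_ge_atTop 1] with L hL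
    have hL' : (0 : ℝ) < L := by exact_mod_cast hL
    rw [div_le_one hL']
    exact_mod_cast Nat.div_mul_le_self L l

/-! ### boxes -/

variable {d : ℕ} {J : (Fin d → ℤ) → ℝ}

/-- The coupling on a box of side `l`. -/
def boxJ (J : (Fin d → ℤ) → ℝ) (l : ℕ) (x y : Fin d → Fin l) : ℝ :=
  J fun a => ((y a : ℕ) : ℤ) - (x a : ℕ)

theorem sum_boxJ (hJ : Coup J) (l : ℕ) (x : Fin d → Fin l) : ∑ y, boxJ J l x y =
    ∑ z ∈ sp hJ, J z * ∑ y : Fin d → Fin l,
      if (fun a => ((y a : ℕ) : ℤ) - (x a : ℕ)) = z then 1 else 0 := by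
  simp only [Finset.mul_sum, mul_ite, mul_one, mul_zero]
  rw [Finset.sum_comm]
  refine Finset.sum_congr rfl fun y _ => ?_
  rw [Finset.sum_ite_eq]
  split_ifs with h
  · rfl
  · exact not_not.1 fun h' => h ((mem_sp hJ).2 h')

theorem sum_boxJ_le (hJ : Coup J) (l : ℕ) (x : Fin d → Fin l) :
    ∑ y, boxJ J l x y ≤ ∑ z ∈ sp hJ, J z := by
  rw [sum_boxJ hJ]
  refine Finset.sum_le_sum fun z _ => mul_le_of_le_one_right (hJ.nonneg z) ?_
  rw [Finset.sum_boole, Nat.cast_le_one]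
  refine Finset.card_le_one.2 fun y hy y' hy' => ?_
  have h := ((Finset.mem_filter.1 hy).2).trans (Finset.mem_filter.1 hy').2.symm
  funext a
  have := congrFun h a
  simp only [sub_left_inj, Nat.cast_inj] at this
  exact Fin.ext this

theorem le_sum_boxJ (hJ : Coup J) {r : ℕ} (hr : ∀ z ∈ sp hJ, ∀ a, (z a).natAbs ≤ r) (l : ℕ) :
    (((l - 2 * r : ℕ) : ℝ)) ^ d * ∑ z ∈ sp hJ, J z ≤ ∑ x, ∑ y, boxJ J l x y := by
  let ι : (Fin d → Fin (l - 2 * r)) → Fin d → Fin l := fun u a => ⟨u a + r, by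
    have := (u a).2; omega⟩
  have hι : Function.Injective ι := fun u v h => funext fun a => by
    have := congrArg Fin.val (congrFun h a)
    simp only [ι] at this
    exact Fin.ext (by omega)
  have h1 : ∀ u, ∑ z ∈ sp hJ, J z ≤ ∑ y, boxJ J l (ι u) y := fun u => by
    rw [sum_boxJ hJ]
    refine Finset.sum_le_sum fun z hz => le_mul_of_one_le_right (hJ.nonneg z) ?_
    rw [Finset.sum_boole, Nat.one_le_cast]
    refine Finset.card_pos.2 ⟨fun a => ⟨((u a : ℕ) + r + z a).toNat, ?_⟩,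
      Finset.mem_filter.2 ⟨Finset.mem_univ _, funext fun a => ?_⟩⟩
    · have := (u a).2
      have := hr z hz a
      omega
    · have := hr z hz a
      simp only [ι]
      omega
  calc _ = ∑ _u : Fin d → Fin (l - 2 * r), ∑ z ∈ sp hJ, J z := by simp
    _ ≤ ∑ u, ∑ y, boxJ J l (ι u) y := Finset.sum_le_sum fun u _ => h1 u
    _ = ∑ x ∈ Finset.univ.image ι, ∑ y, boxJ J l x y :=
        (Finset.sum_image (f := fun x => ∑ y, boxJ J l x y) hι.injOn).symm
    _ ≤ _ := Finset.sum_le_sum_of_subset_of_nonneg (Finset.subset_univ _) fun x _ _ =>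
        Finset.sum_nonneg fun y _ => hJ.nonneg _

/-- Position of the site `b` of the cell `i`. -/
def cell {L l : ℕ} (p : (Fin d → Fin (L / l)) × (Fin d → Fin l)) (a : Fin d) : Fin L :=
  ⟨p.1 a * l + p.2 a, by
    have h1 := (p.1 a).2
    have h2 := (p.2 a).2
    have h3 := Nat.div_mul_le_self L l
    nlinarith⟩

theorem cell_injective {L l : ℕ} :
    Function.Injective (cell : (Fin d → Fin (L / l)) × (Fin d → Fin l) → Fin d → Fin L) := by
  intro p q h
  have key : ∀ a, (p.1 a).1 = q.1 a ∧ (p.2 a).1 = q.2 a := fun a => by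
    have h0 : (p.1 a).1 * l + p.2 a = (q.1 a).1 * l + q.2 a := congrArg Fin.val (congrFun h a)
    have h1 := (p.2 a).2
    have h2 := (q.2 a).2
    have h3 : (p.2 a).1 = q.2 a := by
      have := congrArg (· % l) h0
      simpa [Nat.mod_eq_of_lt h1, Nat.mod_eq_of_lt h2] using this
    refine ⟨Nat.eq_of_mul_eq_mul_right (show 0 < l by omega) (by omega), h3⟩
  exact Prod.ext (funext fun a => Fin.ext (key a).1) (funext fun a => Fin.ext (key a).2)

/-- The comparison with small boxes. -/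
theorem appr_of_pack (hJ : Coup J) {r : ℕ} (hr : ∀ z ∈ sp hJ, ∀ a, (z a).natAbs ≤ r) (n : ℕ)
    (β h : ℝ) (s : ℕ → ℕ) (hs : Tendsto s atTop atTop) (X : ℕ → Type) [∀ L, Fintype (X L)]
    [∀ L, DecidableEq (X L)] (K : ∀ L, X L → X L → ℝ) (hc : ∀ L, Fintype.card (X L) = s L ^ d)
    (hK : ∀ L x y, 0 ≤ K L x y) (hS : ∀ L x, ∑ y, K L x y ≤ ∑ z ∈ sp hJ, J z)
    (ι : ∀ L, (Fin d → Fin (s L)) → X L) (hι : ∀ L, Function.Injective (ι L))
    (hle : ∀ L x y, boxJ J (s L) x y ≤ K L (ι L x) (ι L y)) :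
    Appr (fun l => lz n (boxJ J l) β h / (l : ℝ) ^ d)
      (fun l => |β| * ((n : ℝ) + 1) ^ 2 * ((∑ z ∈ sp hJ, J z) *
        (1 - (((l - 2 * r : ℕ) : ℝ) / l) ^ d)))
      (fun L => lz n (K L) β h / (s L : ℝ) ^ d) := by
  intro l hl ε hε
  have hl' : (0 : ℝ) < l := by exact_mod_cast hl
  set c₁ := |β| * ((n : ℝ) + 1) ^ 2 with hc₁
  set c₂ := |lz n (fun _ _ : Unit => (0 : ℝ)) β h| with hc₂
  set N := ∑ z ∈ sp hJ, J z with hN
  set σ := (((l - 2 * r : ℕ) : ℝ) / l) ^ d with hσ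
  set a := lz n (boxJ J l) β h / (l : ℝ) ^ d with ha
  let θ : ℕ → ℝ := fun L => ((((s L / l : ℕ) : ℝ) * l) / s L) ^ d
  have hθ : Tendsto θ atTop (𝓝 1) := by
    simpa using ((tendsto_fill hl).comp hs).pow d
  have hlim : Tendsto (fun L => c₁ * (N * (1 - θ L * σ)) + c₂ * (1 - θ L) + |(θ L - 1) * a|) atTop
      (𝓝 (c₁ * (N * (1 - 1 * σ)) + c₂ * (1 - 1) + |(1 - 1) * a|)) :=
    (((((hθ.mul_const σ).const_sub 1).const_mul N).const_mul c₁).add
      ((hθ.const_sub 1).const_mul c₂)).add ((hθ.sub_const 1).mul_const a).abs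
  simp only [one_mul, sub_self, mul_zero, zero_mul, abs_zero, add_zero] at hlim
  filter_upwards [hlim.eventually_le_const (lt_add_of_pos_right _ hε), hs.eventually_ge_atTop 1]
    with L h1 h2
  refine le_trans ?_ h1
  have hL : (0 : ℝ) < s L := by exact_mod_cast h2
  have hV : (0 : ℝ) < (s L : ℝ) ^ d := by positivity
  have hp := packing (n := n) (K L) (boxJ J l) (fun p => ι L (cell p))
    ((hι L).comp cell_injective) (hK L) (fun i y y' => le_trans (le_of_eq ?_) (hle L _ _)) β h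
  swap
  · simp only [boxJ, cell]
    congr 1
    funext a
    push_cast
    ring
  simp only [Fintype.card_fun, Fintype.card_fin, hc, Nat.cast_pow] at hp
  set m : ℝ := ((s L / l : ℕ) : ℝ) ^ d with hm
  have hm0 : 0 ≤ m := by positivity
  have e1 : θ L * (s L : ℝ) ^ d = m * (l : ℝ) ^ d := by
    simp only [θ, hm]
    rw [div_pow, div_mul_cancel₀ _ hV.ne', mul_pow]
  have e2 : σ * (l : ℝ) ^ d = ((l - 2 * r : ℕ) : ℝ) ^ d := by
    rw [hσ, div_pow, div_mul_cancel₀ _ (by positivity)]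
  have e3 : ∑ x, ∑ y, K L x y ≤ (s L : ℝ) ^ d * N := by
    refine (Finset.sum_le_sum fun x _ => hS L x).trans (le_of_eq ?_)
    simp [hc]
  have e4 := le_sum_boxJ hJ hr l
  rw [← e2, ← hN] at e4
  have e5 : lz n (boxJ J l) β h = a * (l : ℝ) ^ d := by
    rw [ha, div_mul_cancel₀ _ (by positivity)]
  have e6 : |lz n (K L) β h / (s L : ℝ) ^ d - θ L * a| ≤
      c₁ * (N * (1 - θ L * σ)) + c₂ * (1 - θ L) := by
    rw [← mul_le_mul_iff_left₀ hV, ← abs_of_pos hV, ← abs_mul, abs_of_pos hV, sub_mul,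
      div_mul_cancel₀ _ hV.ne', mul_right_comm, e1, mul_assoc m, mul_comm _ a, ← e5]
    refine hp.trans ?_
    have hc₁0 : 0 ≤ c₁ := by positivity
    have e7 : ∑ x, ∑ y, K L x y - m * ∑ x, ∑ y, boxJ J l x y ≤
        N * (1 - θ L * σ) * (s L : ℝ) ^ d := by
      have := mul_le_mul_of_nonneg_left e4 hm0
      have e8 : N * (1 - θ L * σ) * (s L : ℝ) ^ d =
          (s L : ℝ) ^ d * N - m * (σ * (l : ℝ) ^ d * N) := by
        linear_combination (-N * σ) * e1
      linarith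
    have e9 : c₂ * ((s L : ℝ) ^ d - m * (l : ℝ) ^ d) = c₂ * (1 - θ L) * (s L : ℝ) ^ d := by
      linear_combination c₂ * e1
    rw [e9, add_mul, mul_assoc c₁]
    gcongr
  have := abs_sub_le (lz n (K L) β h / (s L : ℝ) ^ d) (θ L * a) a
  rw [show θ L * a - a = (θ L - 1) * a by ring] at this
  linarith

theorem tendsto_delta (r : ℕ) (c N : ℝ) :
    Tendsto (fun l : ℕ => c * (N * (1 - (((l - 2 * r : ℕ) : ℝ) / l) ^ d))) atTop (𝓝 0) := by
  have h1 : Tendsto (fun l : ℕ => ((l - 2 * r : ℕ) : ℝ) / l) atTop (𝓝 1) := by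
    have h2 : Tendsto (fun l : ℕ => 1 - ((2 * r : ℕ) : ℝ) / l) atTop (𝓝 1) := by
      simpa using (tendsto_const_div_atTop_nhds_zero_nat ((2 * r : ℕ) : ℝ)).const_sub 1
    refine h2.congr' ?_
    filter_upwards [eventually_ge_atTop (2 * r + 1)] with l hl
    have : (0 : ℝ) < l := by exact_mod_cast (show 0 < l by omega)
    rw [Nat.cast_sub (by omega), sub_div, div_self this.ne']
  simpa using (((h1.pow d).const_sub 1).const_mul N).const_mul c

/-- The limit of `log Z / volume` along boxes and tori. -/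
theorem exists_limit (hJ : Coup J) (n : ℕ) (β h : ℝ) : ∃ p : ℝ,
    Tendsto (fun l => lz n (boxJ J l) β h / (l : ℝ) ^ d) atTop (𝓝 p) ∧
    Tendsto (fun L => lz n (torJ J (L + 1)) β h / ((L + 1 : ℕ) : ℝ) ^ d) atTop (𝓝 p) := by
  set r := (sp hJ).sup fun z => Finset.univ.sup fun a => (z a).natAbs
  have hr : ∀ z ∈ sp hJ, ∀ a, (z a).natAbs ≤ r := fun z hz a =>
    le_trans (Finset.le_sup (f := fun a => (z a).natAbs) (Finset.mem_univ a))
      (Finset.le_sup (f := fun z : Fin d → ℤ => Finset.univ.sup fun a => (z a).natAbs) hz)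
  have h1 := appr_of_pack hJ hr n β h id tendsto_id (fun L => Fin d → Fin L) (boxJ J)
    (fun L => by simp) (fun L x y => hJ.nonneg _) (sum_boxJ_le hJ) (fun _ x => x)
    (fun _ => Function.injective_id) fun _ _ _ => le_rfl
  obtain ⟨p, hp⟩ := h1.exists_tendsto (tendsto_delta r _ _)
  refine ⟨p, hp, Appr.tendsto (appr_of_pack hJ hr n β h (· + 1) (tendsto_add_atTop_nat 1)
    (fun L => Tor d (L + 1)) (fun L => torJ J (L + 1)) (fun L => card_Tor)
    (fun L => torJ_nonneg hJ) (fun L x => ?_) (fun L x a => ((x a : ℕ) : ZMod (L + 1)))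
    (fun L x y hxy => ?_) fun L x y => ?_) (tendsto_delta r _ _) hp⟩
  · simpa using (sum_torJ_real hJ x fun _ => 1).le
  · funext a
    have := congrArg ZMod.val (congrFun hxy a)
    rw [ZMod.val_natCast, ZMod.val_natCast, Nat.mod_eq_of_lt (x a).2,
      Nat.mod_eq_of_lt (y a).2] at this
    exact Fin.ext this
  · rw [torJ_eq hJ, boxJ]
    set z : Fin d → ℤ := fun a => ((y a : ℕ) : ℤ) - (x a : ℕ) with hz
    by_cases hm : z ∈ sp hJ
    · refine le_trans (le_of_eq (if_pos ?_).symm) (Finset.single_le_sum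
        (f := fun w => if tcast (L + 1) w = _ then J w else 0) (fun w _ => ?_) hm)
      · funext a
        simp [tcast, hz]
      · split_ifs; exacts [hJ.nonneg w, le_rfl]
    · rw [not_not.1 fun h' => hm ((mem_sp hJ).2 h')]
      exact Finset.sum_nonneg fun w _ => by split_ifs; exacts [hJ.nonneg w, le_rfl]

theorem finitePressure_eq (N n : ℕ) (β h : ℝ) : finitePressure d N n J β h =
    lz n (boxJ J (2 * N + 1)) β h / ((2 * N + 1 : ℕ) : ℝ) ^ d / β := by
  have e : (fun x y : Box d N => J (coord y - coord x)) = boxJ J (2 * N + 1) := by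
    funext x y
    rw [boxJ]
    congr 1
    funext a
    simp [coord]
  rw [finitePressure, div_div, mul_comm _ β, ← e]
  rfl

end Crest.Agent.N337.Th

namespace Crest.Agent.N337

open Crest.MathPhysics.SpinModel Filter Topology Th

theorem convexOn_of_tendsto {f : ℕ → ℝ → ℝ} {g : ℝ → ℝ} (hf : ∀ L, ConvexOn ℝ Set.univ (f L))
    (hg : ∀ h, Tendsto (fun L => f L h) atTop (𝓝 (g h))) : ConvexOn ℝ Set.univ g :=
  ⟨convex_univ, fun x hx y hy a b ha hb hab => le_of_tendsto_of_tendsto' (hg _)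
    (((hg x).const_smul a).add ((hg y).const_smul b)) fun L => (hf L).2 hx hy ha hb hab⟩

/-- The thermodynamic limit. -/
theorem thermo : ThermoStmt := by
  intro d n J _ _ hJ
  choose P hP1 hP2 using exists_limit hJ n
  have htor : ∀ β h, Tendsto (fun L : ℕ => press n (torJ J (L + 1)) β h) atTop (𝓝 (P β h / β)) := by
    intro β h
    refine ((hP2 β h).div_const β).congr fun L => ?_
    rw [press, Free.card_Tor, div_div, mul_comm _ β, Nat.cast_pow]
    rfl
  have hconv : ∀ β, 0 < β → ConvexOn ℝ Set.univ fun h => P β h / β := fun β hβ =>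
    convexOn_of_tendsto (fun L => convexOn_press _ hβ.le) (htor β)
  refine ⟨fun β h => P β h / β, fun β => derivWithin (fun h => P β h / β) (Set.Ioi 0) 0,
    fun β _ h => ?_, fun β hβ => ?_, hconv, fun β _ => htor β⟩
  · simp only [finitePressure_eq]
    refine ((hP1 β h).comp (g := fun l => lz n (boxJ J l) β h / (l : ℝ) ^ d) ?_).div_const β
    exact tendsto_atTop_mono (fun N => by simp only [id]; omega) tendsto_id
  · have h1 := ((hconv β hβ).differentiableWithinAt_Ioi_of_mem_interior (x := 0)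
      (by simp)).hasDerivWithinAt
    rw [hasDerivWithinAt_iff_tendsto_slope' (by simp)] at h1
    refine h1.congr fun h => ?_
    rw [slope_def_field, sub_zero]

end Crest.Agent.N337
end

-- ▼ part N337/Th/Sand
section

/-!
# Row 337: `sand : FinVolStmt → SandStmt` (helper43)
-/

set_option autoImplicit false

namespace Crest.Agent.N337.Th

open Crest.MathPhysics.SpinModel Filter Topology Free MeasureTheory
open scoped Pointwise

variable {d : ℕ} {J : (Fin d → ℤ) → ℝ}

/-- Riemann sums over the momenta of the torus. -/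
theorem tendsto_riemann {g : (Fin d → ℝ) → ℝ} (hg : Continuous g) :
    Tendsto (fun L : ℕ => (∑ k : Tor d (L + 1), g (mom k)) / ((L + 1 : ℕ) : ℝ) ^ d) atTop
      (𝓝 (∫ p in Set.pi Set.univ (fun _ : Fin d => Set.Icc (-Real.pi) Real.pi),
        g p / (2 * Real.pi) ^ d)) := by
  set s : Set (Fin d → ℝ) := Set.pi Set.univ fun _ => Set.Ioc (-(1 / 2) : ℝ) (1 / 2) with hs
  have hπ : 0 < 2 * Real.pi := by positivity
  have h1 := tendsto_tsum_div_pow_atTop_integral s (fun x => g ((2 * Real.pi) • x))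
    (hg.comp (continuous_const_smul _))
    (Bornology.IsBounded.pi fun _ => Metric.isBounded_Ioc _ _)
    (MeasurableSet.univ_pi fun _ => measurableSet_Ioc)
    (Convex.addHaar_frontier volume (convex_pi fun _ _ => convex_Ioc _ _))
  have e1 : (2 * Real.pi) • s = Set.pi Set.univ fun _ : Fin d => Set.Ioc (-Real.pi) Real.pi := by
    ext p
    rw [Set.mem_smul_set_iff_inv_smul_mem₀ hπ.ne', hs]
    simp only [Set.mem_pi, Set.mem_univ, forall_const, Set.mem_Ioc, Pi.smul_apply, smul_eq_mul]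
    refine forall_congr' fun a => ?_
    rw [← div_eq_inv_mul, lt_div_iff₀ hπ, div_le_iff₀ hπ]
    constructor <;> rintro ⟨h1, h2⟩ <;> constructor <;> linarith
  have e2 : ∫ x in s, g ((2 * Real.pi) • x) =
      ∫ p in Set.pi Set.univ (fun _ : Fin d => Set.Icc (-Real.pi) Real.pi),
        g p / (2 * Real.pi) ^ d := by
    have e3 : (Set.pi Set.univ fun _ : Fin d => Set.Ioc (-Real.pi) Real.pi) =ᵐ[volume]
        (Set.pi Set.univ fun _ : Fin d => Set.Icc (-Real.pi) Real.pi) := by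
      rw [Set.pi_univ_Icc]
      exact Measure.univ_pi_Ioc_ae_eq_Icc (f := fun _ => -Real.pi) (g := fun _ => Real.pi)
    rw [Measure.setIntegral_comp_smul_of_pos volume g s hπ, e1, integral_div,
      setIntegral_congr_set e3]
    simp only [Module.finrank_fin_fun, smul_eq_mul]
    rw [div_eq_inv_mul]
  rw [e2, Fintype.card_fin] at h1
  refine (h1.comp (tendsto_add_atTop_nat 1)).congr fun L => ?_
  simp only [Function.comp]
  congr 1
  have hL : (0 : ℝ) < ((L + 1 : ℕ) : ℝ) := by positivity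
  let f : Tor d (L + 1) → ↑(s ∩ (((L + 1 : ℕ) : ℝ))⁻¹ •
      Submodule.span ℤ (Set.range (Pi.basisFun ℝ (Fin d)))) := fun k =>
    ⟨fun a => ((k a).valMinAbs : ℝ) / ((L + 1 : ℕ) : ℝ), fun a _ => by
      have h := ZMod.valMinAbs_mem_Ioc (k a)
      have h2 : -((L + 1 : ℕ) : ℝ) < ((k a).valMinAbs : ℝ) * 2 := by exact_mod_cast h.1
      have h3 : ((k a).valMinAbs : ℝ) * 2 ≤ ((L + 1 : ℕ) : ℝ) := by exact_mod_cast h.2
      rw [Set.mem_Ioc, lt_div_iff₀ hL, div_le_iff₀ hL]
      constructor <;> linarith,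
    BoxIntegral.unitPartition.mem_smul_span_iff.2 fun a => ⟨(k a).valMinAbs, by
      rw [mul_div_cancel₀ _ hL.ne']; simp⟩⟩
  have hf : Function.Bijective f := by
    constructor
    · intro k k' h
      funext a
      have := congrFun (congrArg Subtype.val h) a
      simp only [f] at this
      rw [div_left_inj' hL.ne', Int.cast_inj] at this
      exact ZMod.valMinAbs_inj.1 this
    · rintro ⟨x, hx1, hx2⟩
      choose z hz using BoxIntegral.unitPartition.mem_smul_span_iff.1 hx2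
      refine ⟨fun a => (z a : ZMod (L + 1)), Subtype.ext (funext fun a => ?_)⟩
      have h0 : (z a : ℝ) = ((L + 1 : ℕ) : ℝ) * x a := by simpa using hz a
      obtain ⟨h2, h3⟩ := hx1 a trivial
      have h4 : ((z a : ZMod (L + 1))).valMinAbs = z a := by
        rw [ZMod.valMinAbs_spec]
        refine ⟨rfl, ?_, ?_⟩
        · have : -((L + 1 : ℕ) : ℝ) < (z a : ℝ) * 2 := by rw [h0]; nlinarith
          exact_mod_cast this
        · have : (z a : ℝ) * 2 ≤ ((L + 1 : ℕ) : ℝ) := by rw [h0]; nlinarith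
          exact_mod_cast this
      simp only [f]
      rw [h4, h0, mul_div_cancel_left₀ _ hL.ne']
  rw [← (Equiv.ofBijective f hf).tsum_eq, tsum_fintype]
  refine Finset.sum_congr rfl fun k _ => ?_
  congr 1
  funext a
  simp only [Equiv.ofBijective_apply, f, mom, Pi.smul_apply, smul_eq_mul]
  ring

theorem continuous_eps (hJ : Coup J) (n : ℕ) : Continuous (eps n J) := by
  have : eps n J = fun p => spinVal n * ∑ z ∈ sp hJ, J z * (1 - Real.cos (∑ a, p a * (z a : ℝ))) :=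
    funext (eps_eq hJ n)
  rw [this]
  fun_prop

theorem tendsto_nTor (hJ : Coup J) (n : ℕ) {β h : ℝ} (hβ : 0 < β) (hh : 0 < h) :
    Tendsto (fun L : ℕ => nTor n J (L + 1) β h) atTop (𝓝 (nInf n J β h)) := by
  have hc := continuous_eps hJ n
  have := tendsto_riemann (g := fun p => 1 / (Real.exp (β * (eps n J p + h)) - 1))
    (continuous_const.div (by fun_prop) fun p => by
      have := eps_nonneg hJ n p
      exact (sub_pos.2 (Real.one_lt_exp_iff.2 (by positivity))).ne')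
  simp only [div_div, mul_comm _ ((2 * Real.pi) ^ d)] at this
  exact this

/-- The integrand of `nInf`. -/
noncomputable def bose (n : ℕ) (J : (Fin d → ℤ) → ℝ) (β h : ℝ) (p : Fin d → ℝ) : ℝ :=
  1 / ((2 * Real.pi) ^ d * (Real.exp (β * (eps n J p + h)) - 1))

theorem measurable_bose (hJ : Coup J) (n : ℕ) (β h : ℝ) : Measurable (bose n J β h) := by
  have hc := (continuous_eps hJ n).measurable
  unfold bose
  fun_prop

theorem bose_nonneg (hJ : Coup J) (n : ℕ) {β h : ℝ} (hβ : 0 < β) (hh : 0 ≤ h) (p : Fin d → ℝ) :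
    0 ≤ bose n J β h p := by
  have := eps_nonneg hJ n p
  have : 0 ≤ Real.exp (β * (eps n J p + h)) - 1 := sub_nonneg.2 (Real.one_le_exp (by positivity))
  unfold bose
  positivity

theorem bose_anti (n : ℕ) {β h : ℝ} (hβ : 0 < β) (hh : 0 ≤ h) {p : Fin d → ℝ}
    (hp : 0 < eps n J p) : bose n J β h p ≤ bose n J β 0 p := by
  have : 0 < Real.exp (β * (eps n J p + 0)) - 1 :=
    sub_pos.2 (Real.one_lt_exp_iff.2 (by positivity))
  unfold bose
  gcongr

theorem ae_eps_pos (hd : 1 ≤ d) (hJ : Coup J) {n : ℕ} (hn : 1 ≤ n) : ∃ c : ℝ, 0 < c ∧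
    ∀ᵐ p ∂(volume.restrict (Set.pi Set.univ fun _ : Fin d => Set.Icc (-Real.pi) Real.pi)),
      0 < ‖p‖ ∧ c * ‖p‖ ^ 2 ≤ eps n J p := by
  obtain ⟨c, hc, h⟩ := eps_lower hJ hn
  have : Nonempty (Fin d) := ⟨⟨0, hd⟩⟩
  refine ⟨c, hc, ?_⟩
  have h0 : ∀ᵐ p : Fin d → ℝ, p ≠ 0 := by simp [ae_iff]
  filter_upwards [ae_restrict_mem (MeasurableSet.univ_pi fun _ => measurableSet_Icc),
    ae_restrict_of_ae h0] with p hp hp0
  refine ⟨norm_pos_iff.2 hp0, le_trans ?_ (h p fun a => abs_le.2 (hp a trivial))⟩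
  refine mul_le_mul_of_nonneg_left ?_ hc.le
  refine (Real.le_sqrt (norm_nonneg _) (by positivity)).1
    ((pi_norm_le_iff_of_nonneg (Real.sqrt_nonneg _)).2 fun a => ?_)
  exact Real.abs_le_sqrt (Finset.single_le_sum (f := fun a => p a ^ 2) (fun _ _ => sq_nonneg _)
    (Finset.mem_univ a))

theorem integrableOn_bose (hd : 3 ≤ d) (hJ : Coup J) {n : ℕ} (hn : 1 ≤ n) {β : ℝ} (hβ : 0 < β) :
    IntegrableOn (bose n J β 0)
      (Set.pi Set.univ fun _ : Fin d => Set.Icc (-Real.pi) Real.pi) := by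
  obtain ⟨c, hc, h⟩ := ae_eps_pos (by omega) hJ hn
  have h1 : IntegrableOn (fun p : Fin d → ℝ => ‖p‖ ^ (-2 : ℝ)) (Metric.ball 0 4) :=
    integrableOn_ball_of_norm_le_rpow (C := 1) (α := 2) (by simp; omega)
      (by simp only [Module.finrank_fin_fun]; exact_mod_cast hd)
      (Eventually.of_forall fun p => by
        rw [Real.norm_eq_abs, abs_of_nonneg (by positivity), one_mul])
      (by fun_prop : Measurable fun p : Fin d → ℝ => ‖p‖ ^ (-2 : ℝ)).aestronglyMeasurable
  have h2 := h1.mono_set (s := Set.pi Set.univ fun _ : Fin d => Set.Icc (-Real.pi) Real.pi)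
    fun p hp => by
      rw [mem_ball_zero_iff]
      exact ((pi_norm_le_iff_of_nonneg Real.pi_pos.le).2 fun a =>
        abs_le.2 (hp a trivial)).trans_lt Real.pi_lt_four
  refine Integrable.mono' (h2.const_mul (1 / ((2 * Real.pi) ^ d * (β * c))))
    (measurable_bose hJ n β 0).aestronglyMeasurable ?_
  filter_upwards [h] with p ⟨hp0, hp⟩
  rw [Real.norm_eq_abs, abs_of_nonneg (bose_nonneg hJ n hβ le_rfl p), Real.rpow_neg hp0.le,
    Real.rpow_two, ← div_eq_mul_inv, div_div, bose, add_zero, mul_assoc]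
  have h3 : β * c * ‖p‖ ^ 2 ≤ Real.exp (β * eps n J p) - 1 := by
    have := Real.add_one_le_exp (β * eps n J p)
    nlinarith
  gcongr

theorem nInf_le (hd : 3 ≤ d) (hJ : Coup J) {n : ℕ} (hn : 1 ≤ n) {β h : ℝ} (hβ : 0 < β)
    (hh : 0 ≤ h) : nInf n J β h ≤ nInf n J β 0 := by
  obtain ⟨c, hc, h⟩ := ae_eps_pos (by omega) hJ hn
  refine integral_mono_of_nonneg (Eventually.of_forall (bose_nonneg hJ n hβ hh))
    (integrableOn_bose hd hJ hn hβ) ?_
  filter_upwards [h] with p ⟨hp0, hp⟩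
  exact bose_anti n hβ hh (lt_of_lt_of_le (by positivity) hp)

theorem tendsto_nInf (hd : 3 ≤ d) (hJ : Coup J) {n : ℕ} (hn : 1 ≤ n) {β : ℝ} (hβ : 0 < β) :
    Tendsto (nInf n J β) (𝓝[>] 0) (𝓝 (nInf n J β 0)) := by
  obtain ⟨c, hc, h⟩ := ae_eps_pos (by omega) hJ hn
  refine tendsto_integral_filter_of_dominated_convergence (F := fun h => bose n J β h)
    (f := bose n J β 0) (bose n J β 0)
    (Eventually.of_forall fun h => (measurable_bose hJ n β h).aestronglyMeasurable) ?_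
    (integrableOn_bose hd hJ hn hβ) ?_
  · filter_upwards [self_mem_nhdsWithin] with t ht
    filter_upwards [h] with p ⟨hp0, hp⟩
    rw [Real.norm_eq_abs, abs_of_nonneg (bose_nonneg hJ n hβ (le_of_lt ht) p)]
    exact bose_anti n hβ (le_of_lt ht) (lt_of_lt_of_le (by positivity) hp)
  · filter_upwards [h] with p ⟨hp0, hp⟩
    have h1 : 0 < eps n J p := lt_of_lt_of_le (by positivity) hp
    have h2 : 0 < Real.exp (β * (eps n J p + 0)) - 1 :=
      sub_pos.2 (Real.one_lt_exp_iff.2 (by positivity))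
    refine Tendsto.mono_left (ContinuousAt.tendsto (f := fun t => bose n J β t p) ?_)
      nhdsWithin_le_nhds
    unfold bose
    exact continuousAt_const.div (by fun_prop) (by positivity)

/-- The derivative of the torus pressure. -/
theorem hasDerivAt_press_tor {L : ℕ} [NeZero L] (n : ℕ) {β : ℝ} (hβ : β ≠ 0) (h : ℝ) :
    HasDerivAt (press n (torJ J L) β) (spinVal n - ev n (torJ J L) β h (num n 0)) h := by
  refine (hasDerivAt_press (n := n) (torJ J L) hβ h).congr_deriv ?_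
  have h1 : ∀ x : Tor d L, ev n (torJ J L) β h (Sz n x) =
      spinVal n - ev n (torJ J L) β h (num n 0) := fun x => by
    have := ev_reix (n := n) (J := torJ J L) (J' := torJ J L) (e := Equiv.addRight x)
      (fun u v => torJ_add u v x) β h (num n 0)
    simp only [reix_num, Equiv.coe_addRight, zero_add] at this
    rw [Sz_eq_num, ev_sub, ev_smul, ev_one, mul_one, this]
  simp only [h1, Finset.sum_const, Finset.card_univ, nsmul_eq_mul]
  rw [mul_div_cancel_left₀ _ (by exact_mod_cast Fintype.card_ne_zero)]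

theorem tangent_le {f : ℝ → ℝ} (hf : ConvexOn ℝ Set.univ f) {x y c : ℝ} (hd : HasDerivAt f c x) :
    c * (y - x) ≤ f y - f x := by
  rcases lt_trichotomy x y with h | h | h
  · have := hf.le_slope_of_hasDerivAt (Set.mem_univ x) (Set.mem_univ y) h hd
    rwa [slope_def_field, le_div_iff₀ (sub_pos.2 h)] at this
  · simp [h]
  · have := hf.slope_le_of_hasDerivAt (Set.mem_univ y) (Set.mem_univ x) h hd
    rw [slope_def_field, div_le_iff₀ (sub_pos.2 h)] at this
    linarith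

end Crest.Agent.N337.Th

namespace Crest.Agent.N337

open Crest.MathPhysics.SpinModel Filter Topology Th

/-- The infinite-volume sandwich. -/
theorem sand_of (hF : FinVolStmt) (hT : ThermoStmt) : SandStmt := by
  intro d n J hd hn hJ p m hp hm
  obtain ⟨β₀, hβ₀, hF⟩ := hF d n J hd hn hJ
  obtain ⟨p', -, hp', -, hconv, htor⟩ := hT d n J (by omega) hn hJ
  refine ⟨β₀, hβ₀, fun β hβ => ?_⟩
  have hβ1 : 1 < β := hβ₀.trans_le hβ
  have hβ0 : 0 < β := by linarith
  have e : p' β = p β := funext fun h => tendsto_nhds_unique (hp' β hβ0 h) (hp β hβ0 h)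
  have hc := hconv β hβ0
  have ht := htor β hβ0
  rw [e] at hc ht
  intro η
  have hη0 : 0 < η := Real.rpow_pos_of_pos hβ0 _
  have hη1 : η < 1 := Real.rpow_lt_one_of_one_lt_of_neg hβ1 (by norm_num)
  have hβp : 0 < β * (1 + η) := by positivity
  have hβm : 0 < β * (1 - η) := mul_pos hβ0 (by linarith)
  have htan : ∀ (L : ℕ) (x y : ℝ), (spinVal n - ev n (torJ J (L + 1)) β x (num n 0)) * (y - x) ≤
      press n (torJ J (L + 1)) β y - press n (torJ J (L + 1)) β x := fun L x y =>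
    tangent_le (convexOn_press _ hβ0.le) (hasDerivAt_press_tor n hβ0.ne' x)
  -- lower bounds on `m`
  have hlow : ∀ B : ℝ, (∀ h > 0, ∃ u : ℕ → ℝ, ∃ u₀ ≤ B, Tendsto u atTop (𝓝 u₀) ∧
      ∀ᶠ L in atTop, ev n (torJ J (L + 1)) β h (num n 0) ≤ u L) → spinVal n - m β ≤ B := by
    intro B hB
    have h1 : ∀ x y, 0 < x → x < y → (spinVal n - B) * (y - x) ≤ p β y - p β x := by
      intro x y hx hxy
      obtain ⟨u, u₀, hu, hu1, hu2⟩ := hB x hx
      refine le_trans (mul_le_mul_of_nonneg_right (sub_le_sub_left hu _) (by linarith)) ?_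
      refine le_of_tendsto_of_tendsto ((hu1.const_sub _).mul_const _) ((ht y).sub (ht x)) ?_
      filter_upwards [hu2] with L hL
      exact le_trans (mul_le_mul_of_nonneg_right (sub_le_sub_left hL _) (by linarith)) (htan L x y)
    have h2 : ∀ y, 0 < y → (spinVal n - B) * (y - 0) ≤ p β y - p β 0 := by
      intro y hy
      have hcont : Continuous (p β) := continuousOn_univ.1 (hc.continuousOn isOpen_univ)
      refine le_of_tendsto_of_tendsto (b := 𝓝[>] (0 : ℝ))
        (f := fun x => (spinVal n - B) * (y - x)) (g := fun x => p β y - p β x)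
        (Tendsto.mono_left (Continuous.tendsto (by fun_prop) 0) nhdsWithin_le_nhds)
        (Tendsto.mono_left (Continuous.tendsto (by fun_prop) 0) nhdsWithin_le_nhds) ?_
      filter_upwards [Ioo_mem_nhdsGT hy] with x hx
      exact h1 x y hx.1 hx.2
    have h3 : spinVal n - B ≤ m β := by
      refine ge_of_tendsto (hm β hβ0) ?_
      filter_upwards [self_mem_nhdsWithin] with y hy
      rw [le_div_iff₀ hy]
      simpa using h2 y hy
    linarith
  have hev : ∀ h > 0, ∀ᶠ L in atTop, ev n (torJ J (L + 1)) β h (num n 0) ≤ η ∧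
      (1 - η) * nTor n J (L + 1) (β * (1 + η)) h ≤ ev n (torJ J (L + 1)) β h (num n 0) ∧
      ev n (torJ J (L + 1)) β h (num n 0) ≤
        nTor n J (L + 1) (β * (1 - η)) h + β ^ (-(11 / 4 : ℝ)) := by
    intro h hh
    obtain ⟨L₀, hL₀⟩ := hF β hβ h hh
    filter_upwards [eventually_ge_atTop L₀] with L hL
    exact hL₀ (L + 1) (by omega)
  refine ⟨hlow _ fun h hh => ⟨fun _ => η, η, le_rfl, tendsto_const_nhds,
    (hev h hh).mono fun L hL => hL.1⟩, ?_, hlow _ fun h hh => ⟨_, _, add_le_add_left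
      (nInf_le hd hJ hn hβm hh.le) _, (tendsto_nTor hJ n hβm hh).add_const _,
      (hev h hh).mono fun L hL => hL.2.2⟩⟩
  refine le_of_tendsto_of_tendsto ((tendsto_nInf hd hJ hn hβp).const_mul (1 - η))
    ((hm β hβ0).const_sub (spinVal n)) ?_
  filter_upwards [self_mem_nhdsWithin] with h hh
  have hh' : 0 < h := hh
  have h1 : p β h - p β 0 ≤ (spinVal n - (1 - η) * nInf n J (β * (1 + η)) h) * h := by
    refine le_of_tendsto_of_tendsto ((ht h).sub (ht 0))
      ((((tendsto_nTor hJ n hβp hh').const_mul (1 - η)).const_sub _).mul_const h) ?_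
    filter_upwards [hev h hh'] with L hL
    have := htan L h 0
    nlinarith [hL.2.1]
  rw [← div_le_iff₀ hh'] at h1
  linarith

/-- The infinite-volume sandwich from the finite-volume one. -/
theorem sand (hF : FinVolStmt) : SandStmt := sand_of hF thermo

end Crest.Agent.N337
end

-- ▼ part N337/All

/-!
# Row 337: assembly of the unconditional statements (helper35)
-/

set_option autoImplicit false

namespace Crest.Agent.N337.All

theorem newton : NewtonStmt := newton_of Slot.slot KV.lim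
theorem high : FV.HighStmt := FV.high FV.mode newton
theorem kvg : FV.KVGStmt := FV.kvg FV.mode KV.kvStmt geo
theorem boot : FV.BootStmt := FV.boot FV.mode high kvg
theorem finVol : FinVolStmt := FV.finVol FV.mode high boot newton
theorem sand : SandStmt := Crest.Agent.N337.sand finVol

end Crest.Agent.N337.All
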