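import Crest.Agent.N337.BasicS

/-!
# Row 337, basics IV: the Hamiltonian, `W`, `ev`, `duh`, equation of motion
-/

set_option autoImplicit false

namespace Crest.Agent.N337

open Crest.MathPhysics.SpinModel Filter Topology Matrix

variable {X : Type} [Fintype X] [DecidableEq X] {n : ℕ}

theorem spinDotOn_eq (x y : X) : spinDotOn n x y =
    Sz n x * Sz n y + (1 / 2 : ℂ) • (Sp n x * Sm n y + Sm n x * Sp n y) := rfl

theorem spinDot_comm (x y : X) : spinDotOn n y x = spinDotOn n x y := by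
  by_cases h : x = y
  · rw [h]
  · rw [spinDotOn_eq, spinDotOn_eq, (Sz_commute_Sz x y).eq, (Sp_commute_Sm h).eq,
      ← (Sp_commute_Sm (Ne.symm h)).eq, add_comm (Sp n y * Sm n x)]

theorem spinDot_transpose (x y : X) : (spinDotOn n x y)ᵀ = spinDotOn n x y := by
  rw [← spinDot_comm x y]
  conv_lhs => rw [spinDot_comm x y]
  simp only [spinDotOn_eq, Matrix.transpose_add, Matrix.transpose_smul, Matrix.transpose_mul,
    Sz_transpose, Sp_transpose, Sm_transpose]

theorem spinDot_conjTranspose (x y : X) : (spinDotOn n x y)ᴴ = spinDotOn n x y := by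
  rw [← spinDot_comm x y]
  conv_lhs => rw [spinDot_comm x y]
  simp only [spinDotOn_eq, Matrix.conjTranspose_add, Matrix.conjTranspose_smul,
    Matrix.conjTranspose_mul, Sz_conjTranspose, Sp_conjTranspose, Sm_conjTranspose]
  simp

theorem ham_transpose (J : X → X → ℝ) : (ham n J)ᵀ = ham n J := by
  simp only [ham, Matrix.transpose_smul, Matrix.transpose_sum, spinDot_transpose]

theorem ham_herm (J : X → X → ℝ) : (ham n J).IsHermitian := by
  unfold Matrix.IsHermitian
  simp only [ham, Matrix.conjTranspose_smul, Matrix.conjTranspose_sum, spinDot_conjTranspose]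
  simp

/-- total magnetisation of a configuration. -/
noncomputable def mval (n : ℕ) (σ : X → Fin (n + 1)) : ℝ := ∑ x, levelM n (σ x)

theorem magn_eq : magn X n = diagonal fun σ => ((mval n σ : ℝ) : ℂ) := by
  ext σ τ
  simp only [magn, Sz_eq, Matrix.sum_apply, mval]
  by_cases h : σ = τ
  · subst h; simp
  · simp [h]

theorem magn_transpose : (magn X n)ᵀ = magn X n := by rw [magn_eq, Matrix.diagonal_transpose]
theorem magn_herm : (magn X n).IsHermitian := by
  unfold Matrix.IsHermitian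
  rw [magn_eq, Matrix.diagonal_conjTranspose]; congr 1; funext σ; simp

theorem hamF_transpose (J : X → X → ℝ) (h : ℝ) : (hamF n J h)ᵀ = hamF n J h := by
  simp only [hamF, Matrix.transpose_sub, Matrix.transpose_smul, ham_transpose, magn_transpose]

theorem hamF_herm (J : X → X → ℝ) (h : ℝ) : (hamF n J h).IsHermitian := by
  unfold Matrix.IsHermitian
  simp only [hamF, Matrix.conjTranspose_sub, Matrix.conjTranspose_smul, (ham_herm J).eq,
    magn_herm.eq]
  simp

theorem hamF_zero (J : X → X → ℝ) : hamF n J 0 = ham n J := by simp [hamF]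

theorem W_eq (J : X → X → ℝ) (h t : ℝ) : W n J h t = gW (hamF n J h) t := rfl
theorem ev_eq (J : X → X → ℝ) (β h : ℝ) : ev n J β h = gev (hamF n J h) β := rfl
theorem duh_eq (J : X → X → ℝ) (β h : ℝ) : duh n J β h = gduh (hamF n J h) β := rfl

theorem W_zero (J : X → X → ℝ) (h : ℝ) : W n J h 0 = 1 := gW_zero _
theorem W_add (J : X → X → ℝ) (h s t : ℝ) : W n J h (s + t) = W n J h s * W n J h t :=
  gW_add _ s t
theorem W_herm (J : X → X → ℝ) (h t : ℝ) : (W n J h t).IsHermitian := gW_herm (hamF_herm J h) t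
theorem Zp_pos (J : X → X → ℝ) (β h : ℝ) : 0 < Zp n J β h := gZ_pos (hamF_herm J h) β

theorem hamF_im (J : X → X → ℝ) (h : ℝ) (σ τ : X → Fin (n + 1)) : (hamF n J h σ τ).im = 0 := by
  have h1 := congrFun (congrFun (hamF_herm (n := n) J h).eq τ) σ
  have h2 := congrFun (congrFun (hamF_transpose (n := n) J h) τ) σ
  rw [Matrix.conjTranspose_apply] at h1
  rw [Matrix.transpose_apply] at h2
  exact Complex.conj_eq_iff_im.1 (h1.trans h2.symm)

theorem hamF_offdiag {J : X → X → ℝ} (hJ : ∀ x y, 0 ≤ J x y) (h : ℝ) {σ τ : X → Fin (n + 1)}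
    (hστ : σ ≠ τ) : (hamF n J h σ τ).re ≤ 0 := by
  have hp : Pos (∑ x : X, ∑ y : X, ((J x y : ℝ) : ℂ) • (((1 / 2 : ℝ) : ℂ) •
      (Sp n x * Sm n y + Sm n x * Sp n y))) :=
    Pos.sum _ fun x _ => Pos.sum _ fun y _ =>
      ((((pos_Sp x).mul (pos_Sm y)).add ((pos_Sm x).mul (pos_Sp y))).smul (by norm_num)).smul
        (hJ x y)
  have e : hamF n J h σ τ = ((-(1 / 2) : ℝ) : ℂ) * (∑ x : X, ∑ y : X, ((J x y : ℝ) : ℂ) •
      (((1 / 2 : ℝ) : ℂ) • (Sp n x * Sm n y + Sm n x * Sp n y))) σ τ := by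
    simp only [hamF, ham, spinDotOn_eq, magn_eq, Sz_eq, Matrix.diagonal_mul_diagonal,
      Matrix.sub_apply, Matrix.smul_apply, Matrix.sum_apply, Matrix.add_apply,
      Matrix.diagonal_apply_ne _ hστ, smul_eq_mul]
    push_cast; simp
  rw [e, Complex.re_ofReal_mul]
  have := (hp σ τ).2
  linarith

theorem pos_W' {J : X → X → ℝ} (hJ : ∀ x y, 0 ≤ J x y) (h : ℝ) {t : ℝ} (ht : 0 ≤ t) :
    Pos (W n J h t) := by
  refine pos_exp_of_offdiag (fun σ τ => ?_) fun σ τ hστ => ?_
  · simp [hamF_im]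
  · have := hamF_offdiag (n := n) hJ h hστ
    simp only [Matrix.smul_apply, smul_eq_mul, ← Complex.ofReal_neg, Complex.re_ofReal_mul]
    nlinarith

theorem pos_W {J : X → X → ℝ} (hJ : Ferro J) (h : ℝ) {t : ℝ} (ht : 0 ≤ t) : Pos (W n J h t) :=
  pos_W' hJ.nonneg h ht

/-! ### `ev`, `duh` -/
section evduh
variable (J : X → X → ℝ) (β h : ℝ)

theorem ev_zero : ev n J β h 0 = 0 := gev_zero _ _
theorem ev_one : ev n J β h 1 = 1 := gev_one (hamF_herm J h) _
theorem ev_add (A B : Op X n) : ev n J β h (A + B) = ev n J β h A + ev n J β h B := gev_add _ _ _ _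
theorem ev_sub (A B : Op X n) : ev n J β h (A - B) = ev n J β h A - ev n J β h B := gev_sub _ _ _ _
theorem ev_neg (A : Op X n) : ev n J β h (-A) = -ev n J β h A := gev_neg _ _ _
theorem ev_smul (c : ℝ) (A : Op X n) : ev n J β h ((c : ℂ) • A) = c * ev n J β h A :=
  gev_smul _ _ _ _
theorem ev_sum {ι : Type*} (s : Finset ι) (f : ι → Op X n) :
    ev n J β h (∑ i ∈ s, f i) = ∑ i ∈ s, ev n J β h (f i) := gev_sum _ _ _ _
theorem ev_conjTranspose (A : Op X n) : ev n J β h Aᴴ = ev n J β h A :=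
  gev_conjTranspose (hamF_herm J h) _ _
theorem ev_transpose (A : Op X n) : ev n J β h Aᵀ = ev n J β h A :=
  gev_transpose (hamF_transpose J h) _ _
theorem ev_star_nonneg (A : Op X n) : 0 ≤ ev n J β h (Aᴴ * A) :=
  gev_star_nonneg (hamF_herm J h) _ _
theorem ev_cs (A B : Op X n) :
    ev n J β h (Aᴴ * B) ^ 2 ≤ ev n J β h (Aᴴ * A) * ev n J β h (Bᴴ * B) :=
  gev_cs (hamF_herm J h) _ _ _
theorem ev_SmSp_symm (x y : X) : ev n J β h (Sm n x * Sp n y) = ev n J β h (Sm n y * Sp n x) := by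
  rw [← ev_transpose, Matrix.transpose_mul, Sp_transpose, Sm_transpose]

theorem duh_add_left (A A' B : Op X n) :
    duh n J β h (A + A') B = duh n J β h A B + duh n J β h A' B := gduh_add_left _ _ _ _ _
theorem duh_smul_left (c : ℝ) (A B : Op X n) :
    duh n J β h ((c : ℂ) • A) B = c * duh n J β h A B := gduh_smul_left _ _ _ _ _
theorem duh_smul_right (c : ℝ) (A B : Op X n) :
    duh n J β h A ((c : ℂ) • B) = c * duh n J β h A B := gduh_smul_right _ _ _ _ _
theorem duh_sum_left {ι : Type*} (s : Finset ι) (f : ι → Op X n) (B : Op X n) :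
    duh n J β h (∑ i ∈ s, f i) B = ∑ i ∈ s, duh n J β h (f i) B := gduh_sum_left _ _ _ _ _
theorem duh_sum_right {ι : Type*} (A : Op X n) (s : Finset ι) (f : ι → Op X n) :
    duh n J β h A (∑ i ∈ s, f i) = ∑ i ∈ s, duh n J β h A (f i) := gduh_sum_right _ _ _ _ _
theorem duh_comm (A B : Op X n) : duh n J β h A B = duh n J β h B A := gduh_comm _ _ _ _
theorem duh_conjTranspose (A B : Op X n) : duh n J β h Aᴴ Bᴴ = duh n J β h A B :=
  gduh_conjTranspose (hamF_herm J h) _ _ _
theorem duh_transpose (A B : Op X n) : duh n J β h Aᵀ Bᵀ = duh n J β h A B :=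
  gduh_transpose (hamF_transpose J h) _ _ _
theorem duh_Sp_Sm_symm (x y : X) :
    duh n J β h (Sp n x) (Sm n y) = duh n J β h (Sp n y) (Sm n x) := by
  rw [← duh_transpose, Sp_transpose, Sm_transpose, duh_comm]
theorem duh_SpF_SmF_symm (a b : X → ℝ) :
    duh n J β h (SpF n a) (SmF n b) = duh n J β h (SpF n b) (SmF n a) := by
  rw [← duh_transpose, SpF_transpose, SmF_transpose, duh_comm]
theorem Qf_nonneg (a : X → ℝ) : 0 ≤ Qf n J β h a := by
  unfold Qf; rw [← SpF_conjTranspose]; exact ev_star_nonneg _ _ _ _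

variable {β}
theorem duh_star_nonneg (hβ : 0 ≤ β) (A : Op X n) : 0 ≤ duh n J β h A Aᴴ :=
  gduh_star_nonneg (hamF_herm J h) hβ _
theorem Df_nonneg (hβ : 0 ≤ β) (a : X → ℝ) : 0 ≤ Df n J β h a := by
  unfold Df; rw [← SpF_conjTranspose]; exact duh_star_nonneg _ _ hβ _

variable {J}
theorem ev_mono (hJ : Ferro J) (hβ : 0 ≤ β) {A B : Op X n} (hAB : Pos (B - A)) :
    ev n J β h A ≤ ev n J β h B := gev_mono (hamF_herm J h) (pos_W hJ h hβ) hAB
theorem ev_nonneg (hJ : Ferro J) (hβ : 0 ≤ β) {A : Op X n} (hA : Pos A) : 0 ≤ ev n J β h A := by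
  rw [← ev_zero (n := n) J β h]; exact ev_mono h hJ hβ (by simpa using hA)
theorem duh_nonneg (hJ : Ferro J) (hβ : 0 ≤ β) {A B : Op X n} (hA : Pos A) (hB : Pos B) :
    0 ≤ duh n J β h A B :=
  gduh_nonneg_of_pos (hamF_herm J h) hβ (fun _ ht => pos_W hJ h ht) hA hB

end evduh

/-! ### equation of motion -/

theorem magn_Sp_comm (x : X) : magn X n * Sp n x - Sp n x * magn X n = Sp n x := by
  simp only [magn, Finset.sum_mul, Finset.mul_sum, ← Finset.sum_sub_distrib]
  rw [Finset.sum_eq_single x]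
  · rw [Sz_mul_Sp]; abel
  · intro y _ hy; rw [(Sp_commute_Sz (Ne.symm hy)).eq, sub_self]
  · simp

theorem magn_Sm_comm (x : X) : Sm n x * magn X n - magn X n * Sm n x = Sm n x := by
  have := congrArg Matrix.transpose (magn_Sp_comm (n := n) x)
  simpa only [Matrix.transpose_mul, Matrix.transpose_sub, magn_transpose, Sp_transpose] using this

theorem magn_commute_Sz (x : X) : Commute (magn X n) (Sz n x) :=
  Commute.sum_left _ _ _ fun y _ => Sz_commute_Sz y x

theorem magn_commute_spinDot (x y : X) : Commute (magn X n) (spinDotOn n x y) := by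
  have p : ∀ z, magn X n * Sp n z = Sp n z * magn X n + Sp n z := fun z => by
    rw [← sub_eq_iff_eq_add', magn_Sp_comm]
  have q : ∀ z, magn X n * Sm n z = Sm n z * magn X n - Sm n z := fun z => by
    rw [eq_sub_iff_add_eq, ← eq_sub_iff_add_eq', magn_Sm_comm]
  rw [spinDotOn_eq]
  refine ((magn_commute_Sz x).mul_right (magn_commute_Sz y)).add_right
    (Commute.smul_right (Commute.add_right ?_ ?_) _)
  · unfold Commute SemiconjBy
    rw [← Matrix.mul_assoc, p, Matrix.add_mul, Matrix.mul_assoc, q, Matrix.mul_sub,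
      Matrix.mul_assoc]; abel
  · unfold Commute SemiconjBy
    rw [← Matrix.mul_assoc, q, Matrix.sub_mul, Matrix.mul_assoc, p, Matrix.mul_add,
      Matrix.mul_assoc]; abel

theorem magn_commute_ham (J : X → X → ℝ) : Commute (magn X n) (ham n J) :=
  (Commute.sum_right _ _ _ fun x _ => Commute.sum_right _ _ _ fun y _ =>
    (magn_commute_spinDot x y).smul_right _).smul_right _

theorem magn_commute_hamF (J : X → X → ℝ) (h : ℝ) : Commute (magn X n) (hamF n J h) :=
  (magn_commute_ham J).sub_right ((Commute.refl _).smul_right _)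

theorem Sp_spinDot_comm {x y : X} (hxy : x ≠ y) :
    Sp n x * spinDotOn n x y - spinDotOn n x y * Sp n x = Sz n x * Sp n y - Sz n y * Sp n x := by
  have h1 : Sp n x * (Sz n x * Sz n y) - Sz n x * Sz n y * Sp n x = -(Sz n y * Sp n x) := by
    rw [Matrix.mul_assoc (Sz n x), ← (Sp_commute_Sz hxy).eq, ← Matrix.mul_assoc,
      ← Matrix.mul_assoc, Sz_mul_Sp, Matrix.add_mul]; abel
  have h2 : Sp n x * (Sp n x * Sm n y) - Sp n x * Sm n y * Sp n x = 0 := by
    rw [Matrix.mul_assoc, ← (Sp_commute_Sm hxy).eq, sub_self]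
  have h3 : Sp n x * (Sm n x * Sp n y) - Sm n x * Sp n y * Sp n x =
      (2 : ℂ) • (Sz n x * Sp n y) := by
    rw [Matrix.mul_assoc, (Sp_commute_Sp y x).eq, ← Matrix.mul_assoc, ← Matrix.mul_assoc,
      ← Matrix.sub_mul, Sp_Sm_comm, Matrix.smul_mul]
  have e : Sp n x * spinDotOn n x y - spinDotOn n x y * Sp n x =
      (Sp n x * (Sz n x * Sz n y) - Sz n x * Sz n y * Sp n x) + (1 / 2 : ℂ) •
        ((Sp n x * (Sp n x * Sm n y) - Sp n x * Sm n y * Sp n x) +
          (Sp n x * (Sm n x * Sp n y) - Sm n x * Sp n y * Sp n x)) := by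
    simp only [spinDotOn_eq, Matrix.mul_add, Matrix.add_mul, Matrix.mul_smul, Matrix.smul_mul,
      smul_add, smul_sub]
    abel
  rw [e, h1, h2, h3, zero_add, smul_smul]
  norm_num
  abel

theorem Sp_commute_spinDot {x u v : X} (hu : x ≠ u) (hv : x ≠ v) :
    Commute (Sp n x) (spinDotOn n u v) :=
  ((Sp_commute_Sz hu).mul_right (Sp_commute_Sz hv)).add_right
    ((((Sp_commute_Sp x u).mul_right (Sp_commute_Sm hv)).add_right
      ((Sp_commute_Sm hu).mul_right (Sp_commute_Sp x v))).smul_right _)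

theorem Sp_ham_comm {J : X → X → ℝ} (hJ : Ferro J) (x : X) :
    Sp n x * ham n J - ham n J * Sp n x =
      ∑ y, ((J x y : ℝ) : ℂ) • (Sz n y * Sp n x - Sz n x * Sp n y) := by
  set c : X → X → Op X n := fun u v => ((J u v : ℝ) : ℂ) •
    (Sp n x * spinDotOn n u v - spinDotOn n u v * Sp n x) with hc
  have e : Sp n x * ham n J - ham n J * Sp n x = -(1 / 2 : ℂ) • ∑ u, ∑ v, c u v := by
    simp only [ham, hc, Matrix.mul_smul, Matrix.smul_mul, Finset.mul_sum, Finset.sum_mul,
      smul_sub, Finset.sum_sub_distrib]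
  have hcs : ∀ u v, c u v = c v u := fun u v => by
    simp only [hc, hJ.symm u v, spinDot_comm u v]
  have hc0 : ∀ u v, u ≠ x → v ≠ x → c u v = 0 := fun u v hu hv => by
    simp only [hc, (Sp_commute_spinDot hu.symm hv.symm).eq, sub_self, smul_zero]
  have hxx : c x x = 0 := by simp [hc, hJ.diag]
  have hsplit : ∀ u v, c u v = (if u = x then c x v else 0) + (if v = x then c x u else 0) := by
    intro u v
    by_cases hu : u = x <;> by_cases hv : v = x
    · simp [hu, hv, hxx]
    · simp [hu, hv]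
    · simp [hu, hv, hcs u x]
    · simp [hu, hv, hc0 u v hu hv]
  have e2 : ∑ u, ∑ v, c u v = (2 : ℂ) • ∑ v, c x v := by
    rw [Finset.sum_congr rfl fun u _ => Finset.sum_congr rfl fun v _ => hsplit u v]
    simp only [Finset.sum_add_distrib, Finset.sum_ite_eq', Finset.mem_univ, if_true]
    rw [Finset.sum_comm]
    simp only [Finset.sum_ite_eq', Finset.mem_univ, if_true, two_smul]
  rw [e, e2, smul_smul, show -(1 / 2 : ℂ) * 2 = -1 by norm_num, neg_one_smul,
    ← Finset.sum_neg_distrib]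
  refine Finset.sum_congr rfl fun y _ => ?_
  by_cases hy : x = y
  · subst hy; simp [hxx]
  · simp only [hc, Sp_spinDot_comm hy, ← smul_neg, neg_sub]

/-- **equation of motion** of `S⁺ₓ`. -/
theorem eom {J : X → X → ℝ} (hJ : Ferro J) (h : ℝ) (x : X) :
    Sp n x * hamF n J h - hamF n J h * Sp n x =
      ∑ y, ((J x y : ℝ) : ℂ) • (((spinVal n : ℝ) : ℂ) • (Sp n x - Sp n y) - num n y * Sp n x +
        num n x * Sp n y) + ((h : ℝ) : ℂ) • Sp n x := by
  have e : Sp n x * hamF n J h - hamF n J h * Sp n x = (Sp n x * ham n J - ham n J * Sp n x) +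
      ((h : ℝ) : ℂ) • (magn X n * Sp n x - Sp n x * magn X n) := by
    simp only [hamF, Matrix.mul_sub, Matrix.sub_mul, Matrix.mul_smul, Matrix.smul_mul, smul_sub]
    abel
  rw [e, magn_Sp_comm, Sp_ham_comm hJ]
  congr 1
  refine Finset.sum_congr rfl fun y _ => ?_
  congr 1
  simp only [Sz_eq_num, Matrix.sub_mul, Matrix.smul_mul, Matrix.one_mul, smul_sub]
  abel

end Crest.Agent.N337
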